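import Vale.Agent.P257.M.Cone
import Vale.Agent.P257.A.Att

/-!
# P257, part M: a Koszul pair of cells is one cell

A cell `ν` on `o : X ⟶ N` followed by a cell `τ` on the difference of a null homotopy `h` of
`a ≫ o` and `ν` is a single cell attached along `cone a ⟶ N`.
-/

open CategoryTheory MonoidalCategory Limits Topology OnePoint

namespace Vale.Agent.P257.M

open Vale.Agent.P251.G Vale.Agent.P251.H Vale.Agent.P251.H.LP Vale.Agent.P251.H.StabInput
open Vale.Agent.P251.G.LC (RR HH II)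
open Vale.Agent.P257.A

universe v u

/-- the quadrant is the half line times its boundary -/
noncomputable def quadHomeo : NNReal × NNReal ≃ₜ ℝ × NNReal where
  toFun p := ((p.1 : ℝ) - p.2, min p.1 p.2)
  invFun p := (p.2 + p.1.toNNReal, p.2 + (-p.1).toNNReal)
  left_inv p := by
    obtain ⟨s, t⟩ := p
    have hs := s.2
    have ht := t.2
    ext
    · simp only [NNReal.coe_add, NNReal.coe_min, Real.coe_toNNReal']
      rcases le_total (s : ℝ) t with h | h
      · rw [min_eq_left h, max_eq_right (by linarith)]; ring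
      · rw [min_eq_right h, max_eq_left (by linarith)]; ring
    · simp only [NNReal.coe_add, NNReal.coe_min, Real.coe_toNNReal']
      rcases le_total (s : ℝ) t with h | h
      · rw [min_eq_left h, max_eq_left (by linarith)]; ring
      · rw [min_eq_right h, max_eq_right (by linarith)]; ring
  right_inv p := by
    obtain ⟨r, m⟩ := p
    ext
    · simp only [NNReal.coe_add, Real.coe_toNNReal']
      rcases le_total r 0 with h | h
      · rw [max_eq_right h, max_eq_left (by linarith)]; ring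
      · rw [max_eq_left h, max_eq_right (by linarith)]; ring
    · simp only [NNReal.coe_add, NNReal.coe_min, Real.coe_toNNReal']
      rcases le_total r 0 with h | h
      · rw [max_eq_right h, max_eq_left (by linarith), min_eq_left (by linarith)]; ring
      · rw [max_eq_left h, max_eq_right (by linarith), min_eq_right (by linarith)]; ring
  continuous_toFun := by fun_prop
  continuous_invFun := by
    refine Continuous.prodMk ?_ ?_
    · exact continuous_snd.add (continuous_real_toNNReal.comp continuous_fst)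
    · exact continuous_snd.add (continuous_real_toNNReal.comp continuous_fst.neg)

/-- the quadrant is the half line times its boundary -/
noncomputable def quadLC : HH ⊗ HH ≅ RR ⊗ HH :=
  LC.ofHomeo (X := HH ⊗ HH) (Y := RR ⊗ HH) quadHomeo

theorem quadLC_pos : ((ρ_ HH).inv ≫ HH ◁ zeroHH) ≫ quadLC.hom =
    incPos ≫ (ρ_ RR).inv ≫ RR ◁ zeroHH := by
  apply LC.hom_ext
  intro x
  change ((quadHomeo (x, 0) : ℝ × NNReal) : OnePoint (ℝ × NNReal)) =
    (((((x : NNReal) : ℝ), (0 : NNReal)) : ℝ × NNReal) : OnePoint (ℝ × NNReal))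
  congr 1
  ext <;> simp [quadHomeo]

theorem quadLC_neg : ((λ_ HH).inv ≫ zeroHH ▷ HH) ≫ quadLC.hom =
    incNeg ≫ (ρ_ RR).inv ≫ RR ◁ zeroHH := by
  apply LC.hom_ext
  intro x
  change ((quadHomeo (0, x) : ℝ × NNReal) : OnePoint (ℝ × NNReal)) =
    (((-((x : NNReal) : ℝ), (0 : NNReal)) : ℝ × NNReal) : OnePoint (ℝ × NNReal))
  congr 1
  ext <;> simp [quadHomeo]

variable {M : Type u} [Category.{v} M] [MonoidalCategory M] [SymmetricCategory M]
    [MonoidalClosed M] [HasZeroMorphisms M] [HasColimitsOfSize.{0, 0} M] [StabInput M]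

open Functor.LaxMonoidal Functor.OplaxMonoidal

/-- collecting two space coordinates -/
noncomputable def mu2 (X : M) (K K' : LC) :
    (X ⊗ (J M).obj K) ⊗ (J M).obj K' ≅ X ⊗ (J M).obj (K ⊗ K') :=
  α_ _ _ _ ≪≫ whiskerLeftIso X (Functor.Monoidal.μIso (J M) K K')

theorem mu2_hom (X : M) (K K' : LC) :
    (mu2 X K K').hom = (α_ _ _ _).hom ≫ X ◁ μ (J M) K K' := rfl

@[reassoc]
theorem coneBase_mu2 (X : M) (K : LC) : coneBase (X ⊗ (J M).obj K) ≫ (mu2 X K HH).hom =
    X ◁ (J M).map ((ρ_ K).inv ≫ K ◁ zeroHH) := by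
  have h : (ρ_ ((J M).obj K)).inv ≫ (J M).obj K ◁ ptHH ≫ μ (J M) K HH =
      (J M).map ((ρ_ K).inv ≫ K ◁ zeroHH) := by
    rw [MonoidalCategory.whiskerLeft_comp, Category.assoc, μ_natural_right,
      right_unitality_inv_assoc, ← Functor.map_comp]
  rw [← h, mu2_hom, coneBase_def, Category.assoc, associator_naturality_right_assoc]
  generalize (ptHH : 𝟙_ M ⟶ CI M) = e
  generalize μ (J M) K HH = m
  generalize (J M).obj K = Y at m ⊢
  simp

@[reassoc]
theorem coneBase_whiskerRight_mu2 (X : M) (K : LC) :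
    coneBase X ▷ (J M).obj K ≫ (mu2 X HH K).hom = X ◁ (J M).map ((λ_ K).inv ≫ zeroHH ▷ K) := by
  have h : (λ_ ((J M).obj K)).inv ≫ ptHH ▷ (J M).obj K ≫ μ (J M) HH K =
      (J M).map ((λ_ K).inv ≫ zeroHH ▷ K) := by
    rw [comp_whiskerRight, Category.assoc, μ_natural_left, left_unitality_inv_assoc,
      ← Functor.map_comp]
  rw [← h, mu2_hom, coneBase_def, comp_whiskerRight, Category.assoc,
    associator_naturality_middle_assoc]
  generalize (ptHH : 𝟙_ M ⟶ CI M) = e
  simp

@[reassoc]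
theorem mu2_naturality {X X' : M} (a : X ⟶ X') (K K' : LC) :
    (a ▷ (J M).obj K) ▷ (J M).obj K' ≫ (mu2 X' K K').hom =
      (mu2 X K K').hom ≫ a ▷ (J M).obj (K ⊗ K') := by
  rw [mu2_hom, mu2_hom, associator_naturality_left_assoc, Category.assoc, whisker_exchange]

/-- the double cone is the cone on the suspension -/
noncomputable def quad (X : M) : (X ⊗ CI M) ⊗ CI M ≅ (X ⊗ S M) ⊗ CI M :=
  mu2 X HH HH ≪≫ whiskerLeftIso X ((J M).mapIso quadLC) ≪≫ (mu2 X RR HH).symm

@[reassoc]
theorem coneBase_quad (X : M) :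
    coneBase (X ⊗ CI M) ≫ (quad X).hom = hPos X ≫ coneBase (X ⊗ S M) := by
  simp only [quad, Iso.trans_hom, whiskerLeftIso_hom, Functor.mapIso_hom, Iso.symm_hom]
  rw [coneBase_mu2_assoc, ← Category.assoc, Iso.comp_inv_eq, Category.assoc, coneBase_mu2,
    ← MonoidalCategory.whiskerLeft_comp, ← MonoidalCategory.whiskerLeft_comp, ← Functor.map_comp,
    ← Functor.map_comp, quadLC_pos]

@[reassoc]
theorem coneBase_whiskerRight_quad (X : M) :
    coneBase X ▷ CI M ≫ (quad X).hom = hNeg X ≫ coneBase (X ⊗ S M) := by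
  simp only [quad, Iso.trans_hom, whiskerLeftIso_hom, Functor.mapIso_hom, Iso.symm_hom]
  rw [coneBase_whiskerRight_mu2_assoc, ← Category.assoc, Iso.comp_inv_eq, Category.assoc,
    coneBase_mu2, ← MonoidalCategory.whiskerLeft_comp, ← MonoidalCategory.whiskerLeft_comp,
    ← Functor.map_comp, ← Functor.map_comp, quadLC_neg]

variable {X Xf : M} (a : Xf ⟶ X) {N N' N'' : CommMon M} {o : X ⟶ N.X} {h : Xf ⊗ CI M ⟶ N.X}
  (hh : coneBase Xf ≫ h = a ≫ o) {i : N ⟶ N'} {ν : X ⊗ CI M ⟶ N'.X}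

/-- the class killed by the second cell of a pair -/
noncomputable def pairV (w : coneBase X ≫ ν = o ≫ ah i) : Xf ⊗ S M ⟶ N'.X :=
  glue (h ≫ ah i) (a ▷ CI M ≫ ν) (by rw [reassoc_of% hh, coneBase_naturality_assoc, w])

variable {i' : N' ⟶ N''} {τ : (Xf ⊗ S M) ⊗ CI M ⟶ N''.X}

/-- **A pair of cells is one cell.** -/
theorem isAtt_pair (h1 : IsAtt (coneBase X) o i ν)
    (h2 : IsAtt (coneBase (Xf ⊗ S M)) (pairV a hh h1.w) i' τ) :
    ∃ χ : cone a ⊗ CI M ⟶ N''.X, IsAtt (coneBase (cone a)) (cdesc h o hh) (i ≫ i') χ := by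
  have hP := StabInput.isPushout_whiskerRight (CI M) (isPushout_cone a)
  have w0 : coneBase Xf ▷ CI M ≫ (quad Xf).hom ≫ τ = a ▷ CI M ≫ ν ≫ ah i' := by
    rw [coneBase_whiskerRight_quad_assoc, h2.w, pairV, hNeg_glue_assoc, Category.assoc]
  refine ⟨hP.desc ((quad Xf).hom ≫ τ) (ν ≫ ah i') w0, ?_, fun {R} φ k w => ?_,
    fun {R ψ ψ'} e1 e2 => ?_⟩
  · apply cone_ext
    · rw [← coneBase_naturality_assoc, hP.inl_desc, coneBase_quad_assoc, h2.w, pairV,
        hPos_glue_assoc, ck_cdesc_assoc, ah_comp, Category.assoc]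
    · rw [← coneBase_naturality_assoc, hP.inr_desc, ci_cdesc_assoc, reassoc_of% h1.w, ah_comp]
  · obtain ⟨ψ₁, p1, p2⟩ := h1.desc φ (ci a ▷ CI M ≫ k) (by
      rw [coneBase_naturality_assoc, w, ci_cdesc_assoc])
    obtain ⟨ψ₂, q1, q2⟩ := h2.desc ψ₁ ((quad Xf).inv ≫ ck a ▷ CI M ≫ k) (by
      apply halves_ext
      · rw [← coneBase_quad_assoc, Iso.hom_inv_id_assoc, coneBase_naturality_assoc, w,
          ck_cdesc_assoc, pairV, hPos_glue_assoc, Category.assoc, ← ah_comp, p1]
      · rw [← coneBase_whiskerRight_quad_assoc, Iso.hom_inv_id_assoc, ← comp_whiskerRight_assoc,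
          coneBase_ck, comp_whiskerRight_assoc, pairV, hNeg_glue_assoc, Category.assoc, p2])
    refine ⟨ψ₂, by rw [Category.assoc, q1, p1], ?_⟩
    apply hP.hom_ext
    · rw [hP.inl_desc_assoc, Category.assoc, q2, Iso.hom_inv_id_assoc]
    · rw [hP.inr_desc_assoc, Category.assoc, ← ah_comp, q1, p2]
  · have e3 : i' ≫ ψ = i' ≫ ψ' := h1.ext (by simpa using e1) (by
      have := congrArg (fun f => ci a ▷ CI M ≫ f) e2
      simpa only [hP.inr_desc_assoc, Category.assoc, ← ah_comp] using this)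
    refine h2.ext e3 ?_
    have := congrArg (fun f => ck a ▷ CI M ≫ f) e2
    simp only [hP.inl_desc_assoc, Category.assoc] at this
    exact (cancel_epi _).mp this

end Vale.Agent.P257.M
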