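import Vale.Agent.P257.M.Fac
import Vale.Agent.P257.M.Pair
import Vale.Agent.P257.V.Supp

/-!
# P257, part M: the cells of the chains, base changes of lifted chains
-/

open CategoryTheory MonoidalCategory Limits

namespace Vale.Agent.P257.M

open Vale.Agent.P251.G Vale.Agent.P251.H Vale.Agent.P251.H.StabInput
open Vale.Agent.P257.A Vale.Agent.P257.T Vale.Agent.P257.V

universe v u

section bc

variable {M : Type u} [Category.{v} M] [MonoidalCategory M] [SymmetricCategory M]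
    [MonoidalClosed M] [HasZeroMorphisms M] [HasColimitsOfSize.{0, 0} M] [StabInput M]
    {ok : ℕ → M → Prop} {T0 A T R : CommMon M} {sp0 : A ⟶ T0} {i : ℕ} {tc : TC ok T0 i T}
    {sp : R ⟶ T}

/-- a base change of a lifted chain -/
structure Bc (c : RC A sp0 tc R sp) where
  /-- the new bottom -/
  A' : CommMon M
  /-- the map of bottoms -/
  f : A ⟶ A'
  /-- the new specialisation -/
  sp0' : A' ⟶ T0
  hf : f ≫ sp0' = sp0
  /-- the new top -/
  R' : CommMon M
  /-- the new specialisation -/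
  sp' : R' ⟶ T
  /-- the new chain -/
  c' : RC A' sp0' tc R' sp'
  /-- the map of tops -/
  g : R ⟶ R'
  hg : g ≫ sp' = sp
  po : IsPushout c.i0 f g c'.i0

namespace Bc

variable {c : RC A sp0 tc R sp}

/-- the identity -/
@[reducible] def id (c : RC A sp0 tc R sp) : Bc c :=
  ⟨A, 𝟙 A, sp0, Category.id_comp _, R, sp, c, 𝟙 R, Category.id_comp _,
    IsPushout.of_vert_isIso ⟨(Category.comp_id _).trans (Category.id_comp _).symm⟩⟩

/-- composition -/
@[reducible] def comp (b : Bc c) (b' : Bc b.c') : Bc c :=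
  ⟨b'.A', b.f ≫ b'.f, b'.sp0', by rw [Category.assoc, b'.hf, b.hf], b'.R', b'.sp', b'.c',
    b.g ≫ b'.g, by rw [Category.assoc, b'.hg, b.hg], b.po.paste_vert b'.po⟩

/-- one more cell -/
@[reducible] def cons (b : Bc c) {T' R₁ Q : CommMon M} {s : TStep T T'} (h : ok i s.X)
    {sp₁ : R₁ ⟶ T'} (r : RStep s sp sp₁) {sq : Q ⟶ T'} (r' : RStep s b.sp' sq) (g' : R₁ ⟶ Q)
    (hg' : g' ≫ sq = sp₁) (H : IsPushout r.i b.g g' r'.i) : Bc (c.cons s h r) :=
  ⟨b.A', b.f, b.sp0', b.hf, Q, sq, b.c'.cons s h r', g', hg', b.po.paste_horiz H⟩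

theorem _root_.Vale.Agent.P257.M.Bc.exists (c : RC A sp0 tc R sp) {A' : CommMon M} (f : A ⟶ A') (sp0' : A' ⟶ T0)
    (hf : f ≫ sp0' = sp0) : ∃ (R' : CommMon M) (sp' : R' ⟶ T) (c' : RC A' sp0' tc R' sp')
      (g : R ⟶ R') (hg : g ≫ sp' = sp) (po : IsPushout c.i0 f g c'.i0),
      ∃ b : Bc c, b = ⟨A', f, sp0', hf, R', sp', c', g, hg, po⟩ := by
  obtain ⟨R', sp', c', g, hg, po⟩ := c.bc f hf
  exact ⟨R', sp', c', g, hg, po, _, rfl⟩

theorem ext_g (b : Bc c) {P : M → Prop} {n : ℕ} (h : Ext P n b.f) : Ext P n b.g :=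
  h.of_isPushout b.po.flip

end Bc

end bc

/-- the cells of the chains -/
def okT (p lam i : ℕ) (X : MM) : Prop := NF X (ee i, ((lam ^ i : ℕ) : ℤ)) (dd p i - 1)

/-- the start of the window -/
def Wt (lam i : ℕ) : ℕ := ∑ j ∈ Finset.range i, lam ^ j

theorem Wt_zero (lam : ℕ) : Wt lam 0 = 0 := rfl

theorem Wt_succ (lam i : ℕ) : Wt lam (i + 1) = Wt lam i + lam ^ i := Finset.sum_range_succ _ _

theorem Wt_lt {lam : ℕ} (h : 2 ≤ lam) (i : ℕ) : Wt lam i < lam ^ i := by
  induction i with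
  | zero => exact Nat.one_pos
  | succ i ih =>
    rw [Wt_succ, pow_succ]
    nlinarith

theorem even_dd (p i : ℕ) : Even (dd p i - 1) := ⟨p ^ i - 1, by rw [dd]; ring⟩

/-- the sources of the cells `ν_S`, `S ≠ ∅` -/
def NuX (p : ℕ) (X : MM) : Prop := ∃ (a : Lam) (k : ℤ), NF X (a, 0) k ∧ OkNu p a k

/-- algebras generated in filtration degree zero -/
structure Good (A : CommMon MM) : Prop where
  le0 : Le0 A.X
  pos : PosT A.X 0

namespace Good

variable {A A' : CommMon MM} {X : MM} {a : Lam} {k : ℤ} {p n : ℕ}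

theorem of_iso (h : Good A) (e : A ≅ A') : Good A' :=
  ⟨h.le0.of_iso (ahIso e), posT_of_iso h.pos (ahIso e)⟩

theorem attach (h : Good A) {i : A ⟶ A'} {x : X ⟶ A.X} {χ : X ⊗ CI MM ⟶ A'.X}
    (att : IsAttach i x χ) (hX : NF X (a, 0) k) : Good A' :=
  ⟨Le0.of_isAttach att (Le0.of_nf hX le_rfl) h.le0, posT_attach att h.pos (nf_posT hX le_rfl)⟩

theorem ext (h : Good A) {f : A ⟶ A'} (k : Ext (NuX p) n f) : Good A' :=
  k.induction (fun _ C => Good C) (fun _ _ l => l) (fun _ _ _ e l => l.of_iso e)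
    (fun _ _ _ s ⟨_, _, l, _⟩ m => m.attach s.att l) (k := 0) h

end Good

variable {p lam i : ℕ} {T0 A T R : CommMon MM} {sp0 : A ⟶ T0} {tc : TC (okT p lam) T0 i T}
    {sp : R ⟶ T}

theorem TC.posT (tc : TC (okT p lam) T0 i T) (h : PosT T0.X 0) : PosT T.X 0 := by
  induction tc with
  | nil => exact h
  | cons _ s k ih => exact posT_attach s.att ih (nf_posT k (Int.natCast_nonneg _))

theorem RC.posT (c : RC A sp0 tc R sp) (h : PosT A.X 0) : PosT R.X 0 := by
  induction c with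
  | nil => exact h
  | cons _ s k r ih => exact posT_attach r.att ih (nf_posT k (Int.natCast_nonneg _))

end Vale.Agent.P257.M
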