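import Vale.Agent.P257.M.Cone
import Vale.Agent.P257.A.MapE
import Vale.Agent.P257.C.Supp
import Vale.Agent.P257.F.Vec
import Vale.Agent.P257.D.OSph
import Vale.Agent.P257.D.GrFun

/-!
# P257, part M: the common definitions of the main argument

* the grading `Gam = Lam × ℤ` (weights and filtration degree), the category `MM`;
* the numerical functions `ell`, `sz`, `DD`, `bd`;
* framed cells `NF X g k`;
* the first stage `c1` of the arity filtration as a map out of the functorial cone.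
-/

open CategoryTheory MonoidalCategory Limits MonObj

namespace Vale.Agent.P257.M

open Vale.Agent.P251.G Vale.Agent.P251.H Vale.Agent.P251.H.LP Vale.Agent.P251.H.StabInput
open Vale.Agent.P257.D Vale.Agent.P257.D.EF Vale.Agent.P257.A Vale.Agent.P257.C

universe v u

section num

/-- the weights -/
abbrev Lam : Type := Disc (ℕ →₀ ℤ)

/-- weights and filtration degrees -/
abbrev Gam : Type := Lam × ℤ

/-- the basic weights -/
noncomputable def ee (i : ℕ) : Lam := Disc.mk (Finsupp.single i 1)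

/-- the linear form with the values `f i` on the basic weights -/
noncomputable def wt (f : ℕ → ℤ) : Lam →+ ℤ :=
  (Finsupp.liftAddHom fun i => AddMonoidHom.mulRight (f i) : (ℕ →₀ ℤ) →+ ℤ)

@[simp] theorem wt_ee (f : ℕ → ℤ) (i : ℕ) : wt f (ee i) = f i := by
  change (Finsupp.liftAddHom fun i => AddMonoidHom.mulRight (f i) : (ℕ →₀ ℤ) →+ ℤ)
    (Finsupp.single i 1) = f i
  simp

/-- the dimension `2 p ^ i - 1` of the cell `τ_i` -/
def dd (p i : ℕ) : ℤ := 2 * (p : ℤ) ^ i - 1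

/-- the length of a weight -/
noncomputable def ell : Lam →+ ℤ := wt fun i => 2 ^ i

/-- the size of a weight -/
noncomputable def sz : Lam →+ ℤ := wt fun _ => 1

/-- the expected dimension of a weight -/
noncomputable def DD (p : ℕ) : Lam →+ ℤ := wt (dd p)

/-- the bound of the vanishing lemma -/
noncomputable def bd (p : ℕ) : Lam →+ ℤ := (p : ℤ) • DD p + (p : ℤ) • sz - (3 : ℤ) • ell

@[simp] theorem ell_ee (i : ℕ) : ell (ee i) = 2 ^ i := wt_ee _ _

@[simp] theorem sz_ee (i : ℕ) : sz (ee i) = 1 := wt_ee _ _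

@[simp] theorem DD_ee (p i : ℕ) : DD p (ee i) = dd p i := wt_ee _ _

theorem bd_apply (p : ℕ) (a : Lam) : bd p a = p * DD p a + p * sz a - 3 * ell a := rfl

/-- the condition on the weight and the dimension of the source of a cell `ν_S`, `S ≠ ∅` -/
def OkNu (p : ℕ) (a : Lam) (k : ℤ) : Prop := 1 ≤ ell a ∧ sz a ≤ 0 ∧ DD p a ≤ k + 2

end num

section cat

/-- the index category -/
abbrev JG : Type := Gr O Gam

/-- the category of graded filtered orthogonal spectra -/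
abbrev MM : Type 1 := EF JG

/-- the unit in degree `g` -/
noncomputable def rp (g : Gam) : MM := rep (⟨𝟙_ O, g⟩ : JG)

/-- raising the degree -/
noncomputable def tm {g g' : Gam} (h : g ≤ g') : rp g' ⟶ rp g :=
  repMap (Gr.homMk (x := (⟨𝟙_ O, g⟩ : JG)) (y := ⟨𝟙_ O, g'⟩) (𝟙 _) h)

/-- the map `rp (0, f) ⟶ 𝟙` -/
noncomputable def t1 (f : ℕ) : rp (0, (f : ℤ)) ⟶ 𝟙_ MM :=
  tm (g := 0) (g' := (0, (f : ℤ))) ⟨le_rfl, Int.natCast_nonneg f⟩

/-- the map `X ⊗ rp (0, f) ⟶ X` -/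
noncomputable def tX (X : MM) (f : ℕ) : X ⊗ rp (0, (f : ℤ)) ⟶ X := X ◁ t1 f ≫ (ρ_ X).hom

/-- framed cells of degree `g` and dimension `k` -/
def NF (X : MM) (g : Gam) (k : ℤ) : Prop :=
  ∃ (c : O) (n : ℕ), Nonempty c.El ∧ (n : ℤ) = Fintype.card c.El + k ∧
    Nonempty (X ≅ rep (⟨c, g⟩ : JG) ⊗ tpow (S MM) n)

/-- concentrated in filtration degrees `≥ w` -/
def PosT (X : MM) (w : ℤ) : Prop := Supp X {g : Gam | w ≤ g.2}

/-- concentrated in weights of length `≥ 0` -/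
def PosL (X : MM) : Prop := Supp X {g : Gam | 0 ≤ ell g.1}

/-- contains a positive dimensional representable factor -/
abbrev HV (X : MM) : Prop := F.HasVec (Gr.proj O Gam) X

end cat

section stage

variable {M : Type u} [Category.{v} M] [MonoidalCategory M] [SymmetricCategory M]
    [MonoidalClosed M] [HasZeroMorphisms M] [HasColimitsOfSize.{0, 0} M] [StabInput M]
    {X X' : M} {B B' C C' : CommMon M}

/-- multiplication by a class -/
def actL (x : X ⟶ B.X) : B.X ⊗ X ⟶ B.X := B.X ◁ x ≫ μ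

omit [MonoidalClosed M] [HasZeroMorphisms M] [HasColimitsOfSize.{0, 0} M] [StabInput M] in
@[reassoc]
theorem actL_nat (x : X ⟶ B.X) (φ : B ⟶ C) (a : X ⟶ X') (x' : X' ⟶ C.X)
    (h : x ≫ ah φ = a ≫ x') : actL x ≫ ah φ = (ah φ ⊗ₘ a) ≫ actL x' := by
  rw [actL, actL, Category.assoc, IsMonHom.mul_hom, ← id_tensorHom, ← id_tensorHom,
    tensorHom_comp_tensorHom_assoc, tensorHom_comp_tensorHom_assoc, h, Category.id_comp,
    Category.comp_id]

omit [MonoidalClosed M] [HasZeroMorphisms M] [HasColimitsOfSize.{0, 0} M] [StabInput M] in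
@[reassoc]
theorem actL_ah (x : X ⟶ B.X) (φ : B ⟶ C) : actL x ≫ ah φ = ah φ ▷ X ≫ actL (x ≫ ah φ) := by
  rw [actL_nat x φ (𝟙 X) (x ≫ ah φ) (Category.id_comp _).symm, tensorHom_id]

theorem coneBase_assoc (B X : M) :
    coneBase (B ⊗ X) ≫ (α_ B X (CI M)).hom = B ◁ coneBase X := by
  rw [coneBase_def, coneBase_def]
  simp

/-- the map from the cone of the multiplication by `x` to an algebra in which `x` is null -/
noncomputable def c1 {x : X ⟶ B.X} {i : B ⟶ B'} {χ : X ⊗ CI M ⟶ B'.X}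
    (w : coneBase X ≫ χ = x ≫ ah i) : cone (actL x) ⟶ B'.X :=
  cdesc ((α_ _ _ _).hom ≫ (ah i ⊗ₘ χ) ≫ μ) (ah i) (by
    rw [reassoc_of% coneBase_assoc, ← id_tensorHom, tensorHom_comp_tensorHom_assoc, w,
      Category.id_comp, actL, Category.assoc, IsMonHom.mul_hom, ← id_tensorHom,
      tensorHom_comp_tensorHom_assoc, Category.id_comp])

@[reassoc (attr := simp)]
theorem ck_c1 {x : X ⟶ B.X} {i : B ⟶ B'} {χ : X ⊗ CI M ⟶ B'.X}
    (w : coneBase X ≫ χ = x ≫ ah i) :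
    ck (actL x) ≫ c1 w = (α_ _ _ _).hom ≫ (ah i ⊗ₘ χ) ≫ μ := ck_cdesc _ _ _ _

@[reassoc (attr := simp)]
theorem ci_c1 {x : X ⟶ B.X} {i : B ⟶ B'} {χ : X ⊗ CI M ⟶ B'.X}
    (w : coneBase X ≫ χ = x ≫ ah i) : ci (actL x) ≫ c1 w = ah i := ci_cdesc _ _ _ _

/-- naturality of `c1` -/
theorem coneMap_c1 {x : X ⟶ B.X} {i : B ⟶ B'} {χ : X ⊗ CI M ⟶ B'.X}
    (w : coneBase X ≫ χ = x ≫ ah i) {x' : X' ⟶ C.X} {i' : C ⟶ C'} {χ' : X' ⊗ CI M ⟶ C'.X}
    (w' : coneBase X' ≫ χ' = x' ≫ ah i') (φ : B ⟶ C) (ψ : B' ⟶ C') (a : X ⟶ X')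
    (h : x ≫ ah φ = a ≫ x') (h1 : i ≫ ψ = φ ≫ i') (h2 : χ ≫ ah ψ = a ▷ CI M ≫ χ') :
    coneMap (ah φ ⊗ₘ a) (ah φ) (actL_nat x φ a x' h) ≫ c1 w' = c1 w ≫ ah ψ := by
  apply cone_ext
  · rw [ck_coneMap_assoc, ck_c1, ck_c1_assoc, IsMonHom.mul_hom, tensorHom_comp_tensorHom_assoc,
      ← ah_comp, h1, h2, ah_comp, ← tensorHom_comp_tensorHom_assoc, ← tensorHom_id (ah φ ⊗ₘ a),
      associator_naturality_assoc, tensorHom_id]
  · rw [ci_coneMap_assoc, ci_c1, ci_c1_assoc, ← ah_comp, ← ah_comp, h1]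

end stage

end Vale.Agent.P257.M
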