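import Vale.Agent.P257.M.State
import Vale.Agent.P257.N.Base
import Vale.Agent.P257.W.Lift
import Vale.Agent.P257.W.MUD

/-!
# P257, part M: the beginning of the induction
-/

open CategoryTheory MonoidalCategory Limits

namespace Vale.Agent.P257.M

open Vale.Agent.P251.H Vale.Agent.P251.H.StabInput
open Vale.Agent.P257.A Vale.Agent.P257.T Vale.Agent.P257.V Vale.Agent.P257.W Vale.Agent.P257.K
open Vale.Agent.P257.N (NZ UN SM)
open Equiv (Perm)

universe w

variable {p : ℕ}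

theorem t_eq_zero {T : CommMon MM} (φ : T0 ⟶ T) (a : Lam) (r m : ℕ)
    (h : m • (sE p).map (ut a r ≫ ah φ) = 0) :
    m • (sE p).map (t1 r ≫ MonObj.one (X := T.X)) = 0 := by
  have k : ut 0 r ≫ ah φ = t1 r ≫ MonObj.one := by
    rw [← IsMonHom.one_hom (ah φ), ← unG_zero]
    exact (congrArg (· ≫ _) (tm_unG _ _).symm).trans (Category.assoc _ _ _)
  have e := congrArg (sE p).map (ut_perR (φ := φ) (r := r) (add_neg_cancel a))
  rw [k, Functor.map_comp, Functor.map_comp, SC.st_whiskerRight] at e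
  have l : m • (sE p).map (ut a r ≫ ah φ) ▷ (sE p).obj (rp (-a, 0)) = 0 :=
    (tensorRight _).map_nsmul.symm.trans ((congrArg _ h).trans ((tensorRight _).map_zero _ _))
  rw [← Preadditive.IsIso.comp_left_eq_zero ((sE p).map (rpAdd (g := (a, (r : ℤ))) (g' := (-a, 0))
    (by simp)).hom), Preadditive.comp_nsmul, ← e, ← Preadditive.nsmul_comp, l, zero_comp]

variable {MU : EE p} [MonObj MU] {A₀ : Type w} [CommRing A₀] {G₀ : L.RegSeq p A₀}
  (Co : L.Coef (SC.sph (De p)) MU G₀) {ι : Type} [Finite ι] [Nontrivial ι] [DecidableEq ι]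
  [hp : Fact p.Prime] [hι : Fact (Nat.card ι = p)] {n lam : ℕ} {hl : lam ≤ Nat.card ι}

/-- **BASE.** -/
theorem exists_core_zero (h : Num p n lam) : ∃ σ : Core ι p n lam hl 0, σ.Det Co := by
  have H := W.worldE hp.out
  have hP := h.pow_lt le_rfl
  let i : (cE p).obj (dd p 0 - 1, (ee 0, ((lam ^ 0 : ℕ) : ℤ))) ≅
      (sE p).obj (rp (ee 0, ((lam ^ 0 : ℕ) : ℤ))) := eqToIso (by simp [dd]) ≪≫ (rpIso p _).symm
  obtain ⟨b, T, B, R, s, sp, r, g₁, g₂, X, x, χ, ε, h1, h2, h3, -, h5, h6, h7⟩ :=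
    LLP hp.out h.two_le ⟨le0_T0, posT_T0⟩ (RC.nil (A := CommMon.trivial MM) (sp0 := default))
      ⟨Le0.unit, posT_unit⟩ (h.pow_lt (by omega)) (p • (i.hom ≫ (sE p).map (ut _ _)))
  have hd : Det0 (𝟙 T0) (ee 0) (lam ^ 0) ((sE p).map s.v) := ⟨ε ≪≫ i, by
    rw [h3, natCast_zsmul, Preadditive.comp_nsmul, Iso.trans_hom ε, Category.assoc]
    exact congrArg (fun y => p • (ε.hom ≫ i.hom ≫ (sE p).map y)) (Category.comp_id _).symm⟩
  have h8 : p • (sE p).map (t1 1 ≫ MonObj.one (X := T.X)) = 0 := t_eq_zero s.i (ee 0) 1 p (by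
    have k := N.st_cone_zero (De p) s.χ
    rwa [s.att.w, Functor.map_comp, h3, Category.assoc, Preadditive.IsIso.comp_left_eq_zero,
      Preadditive.nsmul_comp, Category.assoc, ← Preadditive.comp_nsmul,
      Preadditive.IsIso.comp_left_eq_zero, ← Functor.map_comp] at k)
  obtain ⟨k, f, hf⟩ := SC.exists_frac (p • (sE p).map ((De p).t _ ≫ t1 1))
  obtain ⟨l, ζ, hζ⟩ := exists_null (D := De p) (f := f ≫ MonObj.one (X := T.X)) (by
    rw [Functor.map_comp, ← hf, Category.assoc, Preadditive.nsmul_comp, ← Functor.map_comp,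
      Category.assoc, Functor.map_comp, ← Preadditive.comp_nsmul, h8, comp_zero, comp_zero])
  obtain ⟨a, Y, u, ξ, k1, -, k2, k3⟩ := UN.base (P := (lam ^ (n + 1) : ℕ)) (Lm := (p * 2 ^ n : ℕ))
    (Z.ctx (D.Gr.inc D.O (0 : Gam)) p ι) (hι.out ▸ h.three_le) (by exact_mod_cast h.top)
    (((NF.U_tensor (NF0.rp _)).pw k).pw l) ((De p).tk l _ ≫ f)
    (asIso ((sE p).map ((De p).tk l _)) ≪≫ asIso ((sE p).map ((De p).tk k _)) ≪≫
      asIso ((sE p).map ((De p).t _))) (by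
      rw [Functor.map_comp, ← hf, Functor.map_comp]
      simp)
  obtain ⟨z, q, hq⟩ := k3.ex (default : _ ⟶ B)
  obtain ⟨φ, -, -⟩ := k2.desc (default : _ ⟶ T) (u ▷ _ ≫ ζ) (by
    rw [coneBase_naturality_assoc, hζ, N.ah_trivial]
    exact ((Category.assoc _ _ _).trans (congrArg _ (Category.assoc _ _ _))).symm)
  have : IsIso (RC.nil (ok := okT p lam) (T0 := T0) (A := CommMon.trivial MM)
      (sp0 := default)).i0 := inferInstanceAs (IsIso (𝟙 _))
  have := b.po.isIso_inr_of_isIso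
  have uB : UP0 p n lam B ((2 ^ n + 1) * Wt lam 1) (2 ^ 1) := by
    rw [UP0, Subsingleton.elim default (g₁ ≫ g₂)]
    exact ((H.up_ext h.lm_lt (fun _ => id) h5).comp
      (H.up_pair hP h.lm_lt h.lm_lt' h7 h6 (by simp))).mono (by simp [Wt]) (by simp)
  refine ⟨⟨b.A', b.sp0', T0, T, .nil, s, h2, b.R', B, b.sp', sp, b.c', r, h1, z,
    by simpa [Wt] using k3.bc hq, hq.1.desc φ sp (Subsingleton.elim _ _), hq.1.inr_desc _ _ _,
    inv b.c'.i0 ≫ _, IsIso.hom_inv_id_assoc _ _, uB, ?_⟩, ?_⟩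
  · rw [UP0, Subsingleton.elim default (default ≫ z.β)]
    exact (UP.comp uB (H.up_odd hP (k2.of_isPushout hq.1) k1 Even.zero le_rfl (by simp)
      (by simp))).mono (by simp [Wt]) (by simp)
  · rw [Core.Det, TC.All, TC.All, DetS]
    exact ⟨trivial, hd⟩

end Vale.Agent.P257.M
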