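import Vale.Agent.P257.M.State
import Vale.Agent.P257.N.Div
import Vale.Agent.P257.T.Fru

/-!
# P257, part M: division of the Frobenius of the last attaching map

* `Core.nIso`, `Core.nTw`, `Core.van`: the vanishing statements in the next degree;
* `Core.div`: the Frobenius is divisible by `a ^ (m + 2)`;
* `Core.divS`: the data of the step `σ`.
-/

open CategoryTheory MonoidalCategory Limits

namespace Vale.Agent.P257.M

open Vale.Agent.P251.G Vale.Agent.P251.H Vale.Agent.P251.H.StabInput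
open Vale.Agent.P257.A Vale.Agent.P257.T Vale.Agent.P257.V Vale.Agent.P257.W Vale.Agent.P257.K
open Vale.Agent.P257.N (NZ UN SM kT kP kφ NIso NTw GH CX aH)
open Vale.Agent.P257.F (DH sH RH FW)
open Equiv (Perm)

variable {ι : Type} [Finite ι] [Nonempty ι] {p : ℕ} [hp : Fact p.Prime] {n lam : ℕ}
  {hl : lam ≤ Nat.card ι} {j : ℕ}

theorem ell_next (p j : ℕ) : ell (p • ee j) = p * 2 ^ j := by
  rw [map_nsmul, ell_ee, nsmul_eq_mul]

theorem bd_next (p j : ℕ) : bd p (p • ee j) = p * (2 * p ^ (j + 1) - 3 * 2 ^ j) := by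
  rw [map_nsmul, bd_apply, DD_ee, sz_ee, ell_ee, nsmul_eq_mul, dd]
  ring

theorem scD_next (p lam j : ℕ) :
    scD p lam (ee j, ((lam ^ j : ℕ) : ℤ)) = (p • ee j, ((lam ^ (j + 1) : ℕ) : ℤ)) := by
  rw [scD_apply, pow_succ', Nat.cast_mul]

namespace Core

variable (σ : Core ι p n lam hl j) (h : Num p n lam) (hj : j ≤ n)
include h hj

omit hp in
theorem Wt_top : (2 ^ n + 2) * Wt lam (j + 1) ≤ lam ^ (n + 1) :=
  (h.Wt_le _).le.trans (h.pow_le (by omega))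

theorem gpB : GP (sE p) (tE p) (pa p n lam) σ.B.X ((2 ^ n + 1) * Wt lam (j + 1) : ℕ)
    (2 ^ (j + 1) : ℕ) :=
  σ.upB.gp ((Nat.mul_le_mul_right _ (by omega)).trans (Wt_top h hj))

theorem gpN : GP (sE p) (tE p) (pa p n lam) σ.nz.N.X ((2 ^ n + 2) * Wt lam (j + 1) : ℕ)
    (2 ^ (j + 1) : ℕ) := σ.upN.gp (Wt_top h hj)

omit hp h in
theorem ell_le : ell (p • ee j) ≤ (p * 2 ^ n : ℕ) := by
  rw [ell_next]
  exact_mod_cast Nat.mul_le_mul_left p (Nat.pow_le_pow_right two_pos hj)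

theorem nIso (a : Lam) : NIso p σ.nz (a, ((lam ^ (j + 1) : ℕ) : ℤ)) :=
  (σ.un.gd (σ.gpB h hj).posT).iso a _ (Int.ofNat_le.2 (h.pow_le (by omega)))

theorem nTw {a : Lam} (ha : ell a ≤ (p * 2 ^ n : ℕ)) :
    NTw p σ.nz (a, ((lam ^ (j + 1) : ℕ) : ℤ)) :=
  (σ.un.gd (σ.gpB h hj).posT).tw _ (fun b hb => ((σ.gpB h hj).prof b hb).stab) a _ ha
    (by
      have := (h.Wt_le (j + 1)).le
      rw [← Nat.cast_add, ← add_one_mul]
      exact Int.ofNat_le.2 this) (Int.ofNat_le.2 (h.pow_le (by omega)))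

theorem van {l : ℤ} (k : l < 2 * p ^ (j + 1) - 5 * 2 ^ j) :
    (cE p).Van ((sE p).obj σ.nz.N.X) (l, (p • ee j, ((lam ^ (j + 1) : ℕ) : ℤ))) := by
  refine (σ.gpN h hj).prof.van (ell_le hj) (Int.ofNat_le.2 (h.Wt_le _).le)
    (Int.ofNat_le.2 (h.pow_le (by omega))) ?_
  change (p : ℤ) * l < bd p (p • ee j) - p * (2 ^ (j + 1) : ℕ)
  rw [bd_next, ← mul_sub]
  refine mul_lt_mul_of_pos_left ?_ (Int.natCast_pos.2 hp.out.pos)
  push_cast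
  rw [pow_succ (2 : ℤ)]
  omega

end Core

variable [DecidableEq ι] [Fact (Nat.card ι = p)] {c : D.O} {m : ℕ}

theorem gh_next {X : MM} (hc : Nonempty c.El)
    (e : X ≅ D.EF.rep (⟨c, (ee j, ((lam ^ j : ℕ) : ℤ))⟩ : JG) ⊗ tpow (S MM) m) :
    GH p ((-1) ^ Fintype.card c.El) (m - p * Fintype.card c.El,
      (p • ee j, ((lam ^ (j + 1) : ℕ) : ℤ))) ((sH ι p).obj ((FrL (Perm ι) ι lam).obj X)) :=
  scD_next p lam j ▸ N.gh_FrL hc e

end Vale.Agent.P257.M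

namespace Vale.Agent.P257.M

open Vale.Agent.P251.G Vale.Agent.P251.H Vale.Agent.P251.H.StabInput
open Vale.Agent.P257.A Vale.Agent.P257.T Vale.Agent.P257.V Vale.Agent.P257.W Vale.Agent.P257.K
open Vale.Agent.P257.N (NZ UN SM kT kP kφ NIso NTw GH CX aH)
open Vale.Agent.P257.F (DH sH RH FW)
open Equiv (Perm)

variable {ι : Type} [Finite ι] [Nontrivial ι] [DecidableEq ι] {p : ℕ} [hp : Fact p.Prime]
  [hι : Fact (Nat.card ι = p)] {n lam : ℕ} {hl : lam ≤ Nat.card ι} {j : ℕ} {c : D.O} {m : ℕ}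
  (C : CX ι p)
include C

theorem gh_div {X : MM} (hc : Nonempty c.El)
    (hm : (m : ℤ) = Fintype.card c.El + (dd p j - 1))
    (e : X ≅ D.EF.rep (⟨c, (ee j, ((lam ^ j : ℕ) : ℤ))⟩ : JG) ⊗ tpow (S MM) m)
    {V : SC (DH ι p)} {f : (sH ι p).obj ((FrL (Perm ι) ι lam).obj X) ⟶ V}
    (hf : Eu (aH ι (DH ι p)) (m + 2) f) :
    GH p 1 (dd p (j + 1) - 1, (p • ee j, ((lam ^ (j + 1) : ℕ) : ℤ))) V := by
  refine ((gh_next hc e).eu C hf).cast ?_ (Prod.ext ?_ rfl)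
  · rw [← pow_add]
    refine Even.neg_one_pow ((Int.even_coe_nat _).1 ⟨Fintype.card c.El + p ^ j, ?_⟩)
    push_cast
    rw [hm, dd]
    ring
  · push_cast
    rw [hm, dd, dd]
    ring

/-- The Frobenius of the last attaching map is divisible by `a ^ (m + 2)`. -/
theorem Core.div (σ : Core ι p n lam hl j) (h : Num p n lam) (hj : j ≤ n) (hc : Nonempty c.El)
    (hm : (m : ℤ) = Fintype.card c.El + (dd p j - 1))
    (e : σ.s.X ≅ D.EF.rep (⟨c, (ee j, ((lam ^ j : ℕ) : ℤ))⟩ : JG) ⊗ tpow (S MM) m)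
    {V : SC (DH ι p)} {f : (sH ι p).obj ((FrL (Perm ι) ι lam).obj σ.s.X) ⟶ V}
    (hf : Eu (aH ι (DH ι p)) (m + 2) f) :
    Function.Surjective fun g : V ⟶ (sH ι p).obj σ.nz.Z.X => f ≫ g := by
  refine N.eu_surj C (hι.out ▸ h.three_le) hf (gh_next hc e) (σ.nIso h hj _)
    (σ.nTw h hj (Core.ell_le hj)) fun k hk hs => σ.van h hj ?_
  rw [← pow_add] at hs
  obtain ⟨r, hr⟩ := (neg_one_pow_eq_one_iff_even (by decide)).1 hs
  have h1 : (k : ℤ) ≤ m := by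
    rw [dd] at hm
    omega
  have h2 : (k : ℤ) * (p - 1) ≤ m * (p - 1) :=
    mul_le_mul_of_nonneg_right h1 (by have := hp.out.pos; omega)
  have h3 : (8 : ℤ) * 2 ^ j ≤ p := by
    exact_mod_cast (Nat.mul_le_mul_left 8 (Nat.pow_le_pow_right two_pos hj)).trans h.big
  have h4 : (m : ℤ) - p * Fintype.card c.El + m * (p - 1) = 2 * p ^ (j + 1) - 2 * p := by
    rw [hm, dd]
    ring
  have h5 : (0 : ℤ) < 2 ^ j := by positivity
  omega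

/-- **DIVS**: the data of the step `σ`. -/
theorem Core.exists_div' (h : Num p n lam) (hj : j ≤ n) (σ : Core ι p n lam hl j) :
    ∃ (c : D.O) (m : ℕ) (_ : Nonempty c.El) (_ : (m : ℤ) = Fintype.card c.El + (dd p j - 1))
      (_ : σ.s.X ≅ D.EF.rep (⟨c, (ee j, ((lam ^ j : ℕ) : ℤ))⟩ : JG) ⊗ tpow (S MM) m)
      (Q : Action MM (Perm ι)) (f : (sH ι p).obj ((FrL (Perm ι) ι lam).obj σ.s.X) ⟶ (sH ι p).obj Q)
      (g : (sH ι p).obj Q ⟶ (sH ι p).obj σ.nz.Z.X) (P : MM) (y : P ⟶ σ.nz.N.X)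
      (t : (kT ι p).obj ((sE p).obj P) ≅ (kP ι p).obj Q),
      Eu (N.aH ι (DH ι p)) (m + 2) f ∧ f ≫ g = (sH ι p).map σ.Fv ∧
      PosT Q.V ((lam ^ (j + 1) : ℕ) : ℤ) ∧
      NF P (p • ee j, ((lam ^ (j + 1) : ℕ) : ℤ)) (dd p (j + 1) - 1) ∧
      (kT ι p).map ((sE p).map y) ≫ kφ p σ.nz.φ = t.hom ≫ (Kl.ks _).map g ∧
      HV ((FrL (Perm ι) ι lam).obj σ.s.X).V ∧ PosT ((FrL (Perm ι) ι lam).obj σ.s.X).V 1 := by
  obtain ⟨c, m, hc, hm, ⟨e⟩⟩ := σ.hs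
  have hf := eu_st (Eu.of_tpow (aR ι) ((FrL (Perm ι) ι lam).obj σ.s.X) (m + 2)) (DH ι p)
  obtain ⟨g, hg⟩ := σ.div C h hj hc hm e hf ((sH ι p).map σ.Fv)
  obtain ⟨Y, y, t, h1, h2⟩ := N.exists_sigma C (hι.out ▸ h.three_le) (σ.nIso h hj _)
    (gh_div C hc hm e hf) g
  have k := F.nf_FrL (G := Perm ι) (ι := ι) (lam := lam) hc e
  rw [scD_next] at k
  refine ⟨c, m, hc, hm, e, FW ι lam σ.s.X (m + 2), _, g, Y, y, t, hf, hg, ?_, h1, h2, k.hv,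
    k.posT (Int.ofNat_le.2 (Nat.one_le_pow _ _ (by have := h.two_le; omega)))⟩
  refine (F.nf_FW hc e (m + 2)).posT ?_
  rw [scD_next]

omit C in
/-- **DIVS** -/
theorem Core.exists_div (h : Num p n lam) (C : CX ι p) (hj : j < n) (σ : Core ι p n lam hl j) :
    ∃ (c : D.O) (m : ℕ) (_ : Nonempty c.El) (_ : (m : ℤ) = Fintype.card c.El + (dd p j - 1))
      (_ : σ.s.X ≅ D.EF.rep (⟨c, (ee j, ((lam ^ j : ℕ) : ℤ))⟩ : JG) ⊗ tpow (S MM) m)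
      (Q : Action MM (Perm ι)) (f : (sH ι p).obj ((FrL (Perm ι) ι lam).obj σ.s.X) ⟶ (sH ι p).obj Q)
      (g : (sH ι p).obj Q ⟶ (sH ι p).obj σ.nz.Z.X) (P : MM) (y : P ⟶ σ.nz.N.X)
      (t : (kT ι p).obj ((sE p).obj P) ≅ (kP ι p).obj Q),
      Eu (N.aH ι (DH ι p)) (m + 2) f ∧ f ≫ g = (sH ι p).map σ.Fv ∧
      PosT Q.V ((lam ^ (j + 1) : ℕ) : ℤ) ∧
      NF P (p • ee j, ((lam ^ (j + 1) : ℕ) : ℤ)) (dd p (j + 1) - 1) ∧
      (kT ι p).map ((sE p).map y) ≫ kφ p σ.nz.φ = t.hom ≫ (Kl.ks _).map g ∧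
      HV ((FrL (Perm ι) ι lam).obj σ.s.X).V ∧ PosT ((FrL (Perm ι) ι lam).obj σ.s.X).V 1 :=
  Core.exists_div' C h hj.le σ

universe w

variable {MU : EE p} [MonObj MU] {A₀ : Type w} [CommRing A₀] {G₀ : L.RegSeq p A₀}
  {Co : L.Coef (SC.sph (De p)) MU G₀}

omit C in
/-- The division together with the detection of the quotient. -/
theorem Core.exists_next (h : Num p n lam) (C : CX ι p) (hG : Glue ι n lam hl Co) (hj : j < n)
    (σ : Core ι p n lam hl j) (hd : σ.Det Co) :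
    ∃ (Y : Action MM (Perm ι)) (q : (sH ι p).obj Y ⟶ (sH ι p).obj σ.nz.Z.X) (X : MM)
      (y : X ⟶ σ.nz.N.X) (t : (kT ι p).obj ((sE p).obj X) ≅ (kP ι p).obj Y)
      (f : (sH ι p).obj ((FrL (Perm ι) ι lam).obj σ.s.X) ⟶ (sH ι p).obj Y),
      PosT Y.V (lam ^ (j + 1) : ℕ) ∧ NF X (p • ee j, (lam ^ (j + 1) : ℕ)) (dd p (j + 1) - 1) ∧
      (kT ι p).map ((sE p).map y) ≫ kφ p σ.nz.φ = t.hom ≫ (Kl.ks _).map q ∧
      f ≫ q = (sH ι p).map σ.Fv ∧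
      DetV Co (j + 1) σ.tc1.i0 (p • ee j) (lam ^ (j + 1)) ((sE p).map (y ≫ ah σ.fold)) ∧
      HV ((FrL (Perm ι) ι lam).obj σ.s.X).V ∧ PosT ((FrL (Perm ι) ι lam).obj σ.s.X).V 1 := by
  obtain ⟨c, m, hc, hm, e, Q, f, g, P, y, t, h1, h2, h3, h4, h5, h6⟩ := σ.exists_div h C hj
  obtain ⟨u⟩ := h4.iso p
  refine ⟨Q, g, P, y, t, f, h3, h4, h5, h2, ?_, h6⟩
  rw [Functor.map_comp]
  exact hG j hj σ hd c m hc hm e _ f h1 g h2 _ u t _ h5

end Vale.Agent.P257.M
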