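import Vale.Agent.P257.M.Chain
import Vale.Agent.P257.K.Add
import Vale.Agent.P257.L.Loc

/-!
# P257, part M: the exact sequences of a lifted cell

* `exists_rel` : every stable class in a mapping cone is a relative class;
* `RStep.bdry` : the obstruction to pulling a class in the cone of `sp'` back to the cone of `sp`;
* `RStep.bdry'` : the obstruction to pulling a class of `R'` back to `R`.
-/

open CategoryTheory MonoidalCategory Limits MonObj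

namespace Vale.Agent.P257.M

open Vale.Agent.P251.G Vale.Agent.P251.H Vale.Agent.P251.H.LP Vale.Agent.P251.H.StabInput
open Vale.Agent.P257.A Vale.Agent.P257.K Vale.Agent.P257.K.SC Vale.Agent.P257.L
open Vale.Agent.P251.M (IsInv whiskerRight_inj whiskerRight_surj)

universe v u

variable {M : Type u} [Category.{v} M] [MonoidalCategory M] [SymmetricCategory M]
    [MonoidalClosed M] [HasZeroMorphisms M] [HasColimitsOfSize.{0, 0} M] [StabInput M]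

section ic

variable {X₁ X₂ Y₁ Y₂ : M} {f₁ : X₁ ⟶ Y₁} {f₂ : X₂ ⟶ Y₂} {a : X₁ ⟶ X₂} {b : Y₁ ⟶ Y₂}
  (w : f₁ ≫ b = a ≫ f₂)

/-- the collapse of the iterated cone -/
noncomputable def icQ : cone (coneMap a b w) ⟶ cone a ⊗ S M :=
  (isPushout_ic w).desc (ccoll _) 0 (by rw [coneBase_ccoll, comp_zero])

@[reassoc (attr := simp)]
theorem icK_icQ : icK w ≫ icQ w = ccoll _ := IsPushout.inl_desc _ _ _ _

@[reassoc (attr := simp)]
theorem icI_icQ : icI w ≫ icQ w = 0 := IsPushout.inr_desc _ _ _ _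

theorem isCone_ic : IsCone (coneMap f₁ f₂ w.symm) (icK w) (icI w) (icQ w) :=
  ⟨isPushout_ic w, icK_icQ w, icI_icQ w⟩

variable {X₁' X₂' Y₁' Y₂' : M} {f₁' : X₁' ⟶ Y₁'} {f₂' : X₂' ⟶ Y₂'} {a' : X₁' ⟶ X₂'}
  {b' : Y₁' ⟶ Y₂'} (w' : f₁' ≫ b' = a' ≫ f₂') {x₁ : X₁ ⟶ X₁'} {x₂ : X₂ ⟶ X₂'} {y₁ : Y₁ ⟶ Y₁'}
  {y₂ : Y₂ ⟶ Y₂'} (h₁ : f₁ ≫ y₁ = x₁ ≫ f₁') (h₂ : f₂ ≫ y₂ = x₂ ≫ f₂') (hx : a ≫ x₂ = x₁ ≫ a')
  (hy : b ≫ y₂ = y₁ ≫ b')

include hx hy in
theorem ic_w : coneMap a b w ≫ coneMap x₂ y₂ h₂ = coneMap x₁ y₁ h₁ ≫ coneMap a' b' w' := by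
  rw [coneMap_comp, coneMap_comp]
  exact coneMap_congr _ hx hy

/-- functoriality of the iterated cone -/
noncomputable def icMap : cone (coneMap a b w) ⟶ cone (coneMap a' b' w') :=
  coneMap (coneMap x₁ y₁ h₁) (coneMap x₂ y₂ h₂) (ic_w w w' h₁ h₂ hx hy)

@[reassoc]
theorem icI_icMap : icI w ≫ icMap w w' h₁ h₂ hx hy = coneMap y₁ y₂ hy ≫ icI w' := by
  apply cone_ext
  · rw [ck_icI_assoc, icMap, ck_coneMap, ck_coneMap_assoc, ck_icI, ← comp_whiskerRight_assoc,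
      ← comp_whiskerRight_assoc, ci_coneMap]
  · rw [ci_icI_assoc, icMap, ci_coneMap, ci_coneMap_assoc, ci_coneMap_assoc, ci_icI]

@[reassoc]
theorem icK_icMap : icK w ≫ icMap w w' h₁ h₂ hx hy = coneMap x₁ x₂ hx ▷ CI M ≫ icK w' := by
  apply cone_whiskerRight_ext
  · rw [ck_icK_assoc, icMap, ck_coneMap, ← comp_whiskerRight_assoc, ← comp_whiskerRight_assoc,
      ck_coneMap, ck_coneMap, comp_whiskerRight_assoc, comp_whiskerRight_assoc, ck_icK,
      swapCI_naturality_assoc]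
  · rw [ci_icK_assoc, icMap, ci_coneMap, ck_coneMap_assoc, ← comp_whiskerRight_assoc, ci_coneMap,
      comp_whiskerRight_assoc, ci_icK]

theorem icMap_icQ : icMap w w' h₁ h₂ hx hy ≫ icQ w' = icQ w ≫ coneMap x₁ x₂ hx ▷ S M := by
  apply (isPushout_ic w).hom_ext
  · rw [icK_icMap_assoc, icK_icQ, icK_icQ_assoc, ccoll_naturality]
  · rw [icI_icMap_assoc, icI_icQ, icI_icQ_assoc, comp_zero, zero_comp]

end ic

variable {D : Stab M}

instance : IsInv (SS D) := IsInv.of_inverse' (lamIso D)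

theorem tri_isCone (H : Loc (st D)) {A B Z : M} {u : A ⟶ B} {k : A ⊗ CI M ⟶ Z} {i : B ⟶ Z}
    {r : Z ⟶ A ⊗ S M} (h : IsCone u k i r) :
    H.triStr.Tri ((st D).map u) ((st D).map i) ((st D).map r) := by
  have := H.tri_cone h
  rwa [st_δ, Category.comp_id] at this

theorem tri_c (H : Loc (st D)) {A B : M} (u : A ⟶ B) :
    H.triStr.Tri ((st D).map u) ((st D).map (ci u)) ((st D).map (cq u)) :=
  tri_isCone H (isCone_cone u)

/-- the five lemma for functorial cones -/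
theorem bij_coneMap (H : Loc (st D)) {X Y X' Y' : M} {f : X ⟶ Y} {f' : X' ⟶ Y'} (a : X ⟶ X')
    (b : Y ⟶ Y') (w : f ≫ b = a ≫ f') {W W' : SC D} (e : W ≅ W' ⊗ SS D)
    (ha : Bij W ((st D).map a)) (hb : Bij W ((st D).map b)) (ha' : Bij W' ((st D).map a))
    (hb' : Bij W' ((st D).map b)) : Bij W ((st D).map (coneMap a b w)) :=
  TriStr.five (tri_c H f) (tri_c H f') (by rw [← Functor.map_comp, w, Functor.map_comp])
    (by rw [← Functor.map_comp, ci_coneMap, Functor.map_comp])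
    (by rw [← st_whiskerRight, ← Functor.map_comp, ← coneMap_cq, Functor.map_comp]) ha hb
    (((bij_whiskerRight_iff _).2 ha').of_iso e) (((bij_whiskerRight_iff _).2 hb').of_iso e)

/-- a stably trivial map is trivial after a stabilisation -/
theorem exists_null {X Y : M} {f : X ⟶ Y} (h : (st D).map f = 0) :
    ∃ (k : ℕ) (χ : D.pw k X ⊗ CI M ⟶ Y), coneBase _ ≫ χ = D.tk k X ≫ f := by
  obtain ⟨k, hk⟩ := (st_eq_zero_iff f).1 h
  exact ⟨k, exists_cone_of_null hk⟩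

/-- classes out of a suspension are represented after a stabilisation -/
theorem exists_frac_S {X Y : M} (x : (st D).obj (X ⊗ S M) ⟶ (st D).obj Y) :
    ∃ (k : ℕ) (f : D.pw k X ⊗ S M ⟶ Y), (st D).map (D.tk k X ▷ S M) ≫ x = (st D).map f := by
  have key : ∀ k : ℕ, ∃ e : D.pw k X ⊗ S M ⟶ D.pw k (X ⊗ S M),
      e ≫ D.tk k (X ⊗ S M) = D.tk k X ▷ S M := fun k => by
    induction k with
    | zero => exact ⟨𝟙 _, by simp⟩
    | succ k ih =>
      obtain ⟨e, he⟩ := ih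
      refine ⟨(α_ _ _ _).hom ≫ D.U ◁ e, ?_⟩
      rw [D.tk_succ, D.tk_succ, Category.assoc, D.t_nat_assoc, he, comp_whiskerRight,
        ← Category.assoc]
      congr 1
      simp [Stab.t]
  obtain ⟨k, f, hf⟩ := exists_frac x
  obtain ⟨e, he⟩ := key k
  exact ⟨k, e ≫ f, by rw [← he, Functor.map_comp, Category.assoc, hf, Functor.map_comp]⟩

theorem tk_add_exists (k l : ℕ) (X : M) :
    ∃ e : D.pw (k + l) X ≅ D.pw l (D.pw k X), e.hom ≫ D.tk l _ ≫ D.tk k X = D.tk (k + l) X := by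
  induction l with
  | zero => exact ⟨Iso.refl _, by simp⟩
  | succ l ih =>
    obtain ⟨e, he⟩ := ih
    refine ⟨whiskerLeftIso D.U e, ?_⟩
    change D.U ◁ e.hom ≫ (D.t _ ≫ D.tk l _) ≫ _ = D.t _ ≫ D.tk (k + l) X
    rw [Category.assoc, D.t_nat_assoc, he]

/-- the closure property of a class of sources -/
structure Src (D : Stab M) (Q : M → Prop) : Prop where
  pw : ∀ {X : M} (k : ℕ), Q X → Q (D.pw k X)

/-- **Every class in a cone is a relative class.** -/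
theorem exists_rel (H : Loc (st D)) {Q : M → Prop} (hQ : Src D Q) {A T X : M} (f : A ⟶ T)
    (hX : Q X) (z : (st D).obj (X ⊗ S M) ⟶ (st D).obj (cone f)) :
    ∃ (X' : M) (u : X' ⟶ X) (o : X' ⟶ A) (ζ : X' ⊗ CI M ⟶ T) (h : coneBase X' ≫ ζ = o ≫ f),
      Q X' ∧ IsIso ((st D).map u) ∧
        (st D).map (u ▷ S M) ≫ z = (st D).map (rel f o ζ h) := by
  obtain ⟨o₀, ho₀⟩ := whiskerRight_surj (SS D) (Y := (st D).obj X) (Z := (st D).obj A)
    (z ≫ (st D).map (cq f))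
  obtain ⟨k, o₁, ho₁⟩ := exists_frac o₀
  have h0 : (st D).map (o₁ ≫ f) = 0 := by
    refine eq_zero_of_whiskerRight_S _ ?_
    rw [Functor.map_comp, ← ho₁, comp_whiskerRight, comp_whiskerRight, ho₀, Category.assoc,
      Category.assoc, TriStr.comp₃ (tri_c H f), comp_zero, comp_zero]
  obtain ⟨l, ζ₁, hζ₁⟩ := exists_null h0
  rw [← Category.assoc] at hζ₁
  have h1 : ((st D).map ((D.tk l _ ≫ D.tk k X) ▷ S M) ≫ z - (st D).map (rel f _ ζ₁ hζ₁)) ≫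
      (st D).map (cq f) = 0 := by
    rw [Preadditive.sub_comp, ← Functor.map_comp, st_htpy (rel_cq _ _ _), Category.assoc, ← ho₀,
      st_whiskerRight, st_whiskerRight, Functor.map_comp, Functor.map_comp, ← ho₁,
      ← comp_whiskerRight, Category.assoc, sub_self]
  obtain ⟨y, hy⟩ := TriStr.co₃ (tri_c H f) _ h1
  obtain ⟨m, y₁, hy₁⟩ := exists_frac_S y
  obtain ⟨ψ, hψ, h2⟩ := exists_glue_right (D.tk m _ ▷ CI M ≫ ζ₁) y₁
  have h3 : coneBase _ ≫ D.tk m _ ▷ CI M ≫ ζ₁ = (D.tk m _ ≫ D.tk l _ ≫ o₁) ≫ f := by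
    rw [coneBase_naturality_assoc, hζ₁, Category.assoc, Category.assoc, Category.assoc]
  refine ⟨_, D.tk m _ ≫ D.tk l _ ≫ D.tk k X, D.tk m _ ≫ D.tk l _ ≫ o₁, ψ, hψ.symm.trans h3,
    hQ.pw _ (hQ.pw _ (hQ.pw _ hX)), ?_, ?_⟩
  · simp only [Functor.map_comp]
    infer_instance
  · rw [st_htpy (rel_change _ _ ψ h3 _), st_madd, Functor.map_comp, st_htpy h2, ← hy₁,
      Category.assoc, hy, Preadditive.comp_sub, ← Functor.map_comp, whiskerRight_rel,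
      sub_add_cancel, comp_whiskerRight, Functor.map_comp, Category.assoc]

section step

variable {T T' R R' Q Q' : CommMon M}

/-- the map of cones given by a base change -/
noncomputable def kmap {sp : R ⟶ T} {sq : Q ⟶ T} (g : R ⟶ Q) (hg : g ≫ sq = sp) :
    cone (ah sp) ⟶ cone (ah sq) :=
  coneMap (ah g) (𝟙 _) (by rw [← ah_comp, hg, Category.comp_id])

/-- the map of cones given by a map of levels -/
noncomputable def kup {sp : R ⟶ T} {sp' : R' ⟶ T'} (i : R ⟶ R') (j : T ⟶ T')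
    (h : i ≫ sp' = sp ≫ j) : cone (ah sp) ⟶ cone (ah sp') :=
  coneMap (ah i) (ah j) (by rw [← ah_comp, ← ah_comp, h])

theorem kmap_comp {P : CommMon M} {sp : R ⟶ T} {sq : Q ⟶ T} {sr : P ⟶ T} (g : R ⟶ Q)
    (hg : g ≫ sq = sp) (g' : Q ⟶ P) (hg' : g' ≫ sr = sq) :
    kmap g hg ≫ kmap g' hg' = kmap (g ≫ g') (by rw [Category.assoc, hg', hg]) := by
  rw [kmap, kmap, coneMap_comp]
  exact coneMap_congr _ rfl (Category.comp_id _)

theorem kup_comp {R'' T'' : CommMon M} {sp : R ⟶ T} {sp' : R' ⟶ T'} {sp'' : R'' ⟶ T''}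
    (i : R ⟶ R') (j : T ⟶ T') (h : i ≫ sp' = sp ≫ j) (i' : R' ⟶ R'') (j' : T' ⟶ T'')
    (h' : i' ≫ sp'' = sp' ≫ j') : kup i j h ≫ kup i' j' h' =
      kup (i ≫ i') (j ≫ j') (by rw [Category.assoc, h', reassoc_of% h]) := by
  rw [kup, kup, coneMap_comp]
  rfl

theorem kup_kmap {sp : R ⟶ T} {sp' : R' ⟶ T'} {sq : Q ⟶ T} {sq' : Q' ⟶ T'} (i : R ⟶ R')
    (j : T ⟶ T') (h : i ≫ sp' = sp ≫ j) (i' : Q ⟶ Q') (h' : i' ≫ sq' = sq ≫ j) (g : R ⟶ Q)
    (hg : g ≫ sq = sp) (g' : R' ⟶ Q') (hg' : g' ≫ sq' = sp') (w : i ≫ g' = g ≫ i') :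
    kup i j h ≫ kmap g' hg' = kmap g hg ≫ kup i' j h' := by
  rw [kup, kup, kmap, kmap, coneMap_comp, coneMap_comp]
  exact coneMap_congr _ (by rw [← ah_comp, w, ah_comp]) (by simp)

theorem kup_id {sp : R ⟶ T} (h : 𝟙 R ≫ sp = sp ≫ 𝟙 T) : kup (𝟙 R) (𝟙 T) h = 𝟙 _ := coneMap_id

@[reassoc]
theorem ci_kmap {sp : R ⟶ T} {sq : Q ⟶ T} (g : R ⟶ Q) (hg : g ≫ sq = sp) :
    ci (ah sp) ≫ kmap g hg = ci (ah sq) := by
  rw [kmap, ci_coneMap, Category.id_comp]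

variable {s : TStep T T'} {sp : R ⟶ T} {sp' : R' ⟶ T'} (r : RStep s sp sp')

theorem RStep.act_w : actL r.v ≫ ah sp = ah sp ▷ s.X ≫ actL s.v := by
  rw [actL_ah, r.hv]

theorem RStep.c1_w : coneMap _ _ r.act_w ≫ c1 s.att.w = c1 r.att.w ≫ ah sp' := by
  rw [← coneMap_c1 r.att.w s.att.w sp sp' (𝟙 _) (by rw [r.hv, Category.id_comp]) r.hi
    (by rw [r.hχ, id_whiskerRight, Category.id_comp])]
  congr 1
  exact coneMap_congr _ (tensorHom_id _ _).symm rfl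

/-- the comparison of the iterated cone with the cone of `sp'` -/
noncomputable def RStep.cmp : cone (coneMap _ _ r.act_w) ⟶ cone (ah sp') :=
  coneMap (c1 r.att.w) (c1 s.att.w) r.c1_w

theorem RStep.icI_cmp : icI r.act_w ≫ r.cmp = kup r.i s.i r.hi := by
  apply cone_ext
  · rw [ck_icI_assoc, RStep.cmp, ck_coneMap, ← comp_whiskerRight_assoc, ci_c1, kup, ck_coneMap]
  · rw [ci_icI_assoc, RStep.cmp, ci_coneMap, ci_c1_assoc, kup, ci_coneMap]

/-- **The obstruction in the cone of `sp`.** -/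
theorem RStep.bdry (H : Loc (st D)) {W W' : SC D} (e : W ≅ W' ⊗ SS D)
    (h1 : Bij W ((st D).map (c1 r.att.w))) (h2 : Bij W ((st D).map (c1 s.att.w)))
    (h3 : Bij W' ((st D).map (c1 r.att.w))) (h4 : Bij W' ((st D).map (c1 s.att.w)))
    (z : W ⟶ (st D).obj (cone (ah sp'))) :
    ∃ z₂ : W ⟶ (st D).obj ((cone (ah sp) ⊗ s.X) ⊗ S M),
      ∀ {Q Q' : CommMon M} {sq : Q ⟶ T} {sq' : Q' ⟶ T'} (r' : RStep s sq sq') (g : R ⟶ Q)
        (hg : g ≫ sq = sp) (g' : R' ⟶ Q') (hg' : g' ≫ sq' = sp'), r'.v = r.v ≫ ah g →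
        r.χ ≫ ah g' = r'.χ → r.i ≫ g' = g ≫ r'.i →
        z₂ ≫ (st D).map ((kmap g hg ▷ s.X) ▷ S M) = 0 →
        ∃ z₃ : W ⟶ (st D).obj (cone (ah sq)),
          z₃ ≫ (st D).map (kup r'.i s.i r'.hi) = z ≫ (st D).map (kmap g' hg') := by
  obtain ⟨z₁, rfl⟩ := (bij_coneMap H _ _ r.c1_w e h1 h2 h3 h4).surj z
  refine ⟨z₁ ≫ (st D).map (icQ r.act_w ≫ (coneTensor (ah sp) s.X).hom ▷ S M),
    fun {Q Q' sq sq'} r' g hg g' hg' hv hχ hi h0 => ?_⟩
  have k₁ : actL r.v ≫ ah g = ah g ▷ s.X ≫ actL r'.v := by rw [actL_ah, hv]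
  have k₂ : actL s.v ≫ 𝟙 _ = 𝟙 _ ▷ s.X ≫ actL s.v := by simp
  have k₃ : ah sp ≫ 𝟙 _ = ah g ≫ ah sq := by rw [← ah_comp, hg, Category.comp_id]
  have k₄ : ah sp ▷ s.X ≫ 𝟙 _ ▷ s.X = ah g ▷ s.X ≫ ah sq ▷ s.X := by
    rw [← comp_whiskerRight, k₃, comp_whiskerRight]
  have h5 : (z₁ ≫ (st D).map (icMap r.act_w r'.act_w k₁ k₂ k₄ k₃)) ≫
      (st D).map (icQ r'.act_w) = 0 := by
    rw [← cancel_mono ((st D).map ((coneTensor (ah sq) s.X).hom ▷ S M)), zero_comp, ← h0]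
    simp only [Category.assoc, ← Functor.map_comp]
    rw [reassoc_of% icMap_icQ, ← comp_whiskerRight, ← comp_whiskerRight, coneTensor_naturality]
    rfl
  obtain ⟨z₃, h6⟩ := TriStr.co₃ (tri_isCone H (isCone_ic r'.act_w)) _ h5
  refine ⟨z₃, ?_⟩
  rw [← r'.icI_cmp, Functor.map_comp, reassoc_of% h6, Category.assoc, ← Functor.map_comp,
    ← Functor.map_comp]
  congr 2
  refine (coneMap_comp _ _ _ _ _ _).trans (Eq.trans ?_ (coneMap_comp _ _ _ _ _ _).symm)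
  refine coneMap_congr _ ?_ ?_
  · rw [← coneMap_c1 r.att.w r'.att.w g g' (𝟙 _) (by rw [hv, Category.id_comp]) hi
      (by rw [hχ, id_whiskerRight, Category.id_comp])]
    congr 1
    exact coneMap_congr _ (tensorHom_id _ _).symm rfl
  · rw [Category.comp_id, coneMap_congr k₂ (id_whiskerRight _ _) rfl, coneMap_id,
      Category.id_comp]

/-- **The obstruction in `R`.** -/
theorem RStep.bdry' (H : Loc (st D)) {W : SC D} (h1 : Bij W ((st D).map (c1 r.att.w)))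
    (h2 : Bij W ((st D).map (c1 s.att.w))) (x : W ⟶ (st D).obj R'.X)
    (y : W ⟶ (st D).obj T.X) (hy : y ≫ (st D).map (ah s.i) = x ≫ (st D).map (ah sp')) :
    ∃ x₂ : W ⟶ (st D).obj ((R.X ⊗ s.X) ⊗ S M), x₂ ≫ (st D).map ((ah sp ▷ s.X) ▷ S M) = 0 ∧
      ∀ {Q Q' : CommMon M} {sq : Q ⟶ T} {sq' : Q' ⟶ T'} (r' : RStep s sq sq') (g : R ⟶ Q)
        (g' : R' ⟶ Q'), r'.v = r.v ≫ ah g → r.χ ≫ ah g' = r'.χ → r.i ≫ g' = g ≫ r'.i →
        x₂ ≫ (st D).map ((ah g ▷ s.X) ▷ S M) = 0 →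
        ∃ x₃ : W ⟶ (st D).obj Q.X, x₃ ≫ (st D).map (ah r'.i) = x ≫ (st D).map (ah g') := by
  obtain ⟨x₁, rfl⟩ := h1.surj x
  refine ⟨x₁ ≫ (st D).map (cq _), ?_, fun {Q Q' sq sq'} r' g g' hv hχ hi h0 => ?_⟩
  · have k : x₁ ≫ (st D).map (coneMap _ _ r.act_w) = y ≫ (st D).map (ci _) := h2.inj (by
      rw [Category.assoc, Category.assoc, ← Functor.map_comp, ← Functor.map_comp, r.c1_w, ci_c1,
        hy, Functor.map_comp, Category.assoc])
    rw [Category.assoc, ← Functor.map_comp, ← coneMap_cq _ _ r.act_w, Functor.map_comp,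
      reassoc_of% k, ← Functor.map_comp, ci_cq, st_zero, comp_zero]
  · have k₁ : actL r.v ≫ ah g = ah g ▷ s.X ≫ actL r'.v := by rw [actL_ah, hv]
    have h5 : (x₁ ≫ (st D).map (coneMap _ _ k₁)) ≫ (st D).map (cq _) = 0 := by
      rw [← h0, Category.assoc, Category.assoc, ← Functor.map_comp, ← Functor.map_comp,
        coneMap_cq]
    obtain ⟨x₃, h6⟩ := TriStr.co₃ (tri_c H (actL r'.v)) _ h5
    refine ⟨x₃, ?_⟩
    rw [← ci_c1 r'.att.w, Functor.map_comp, reassoc_of% h6, Category.assoc, ← Functor.map_comp,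
      ← Functor.map_comp]
    congr 2
    rw [← coneMap_c1 r.att.w r'.att.w g g' (𝟙 _) (by rw [hv, Category.id_comp]) hi
      (by rw [hχ, id_whiskerRight, Category.id_comp])]
    congr 1
    exact coneMap_congr _ (tensorHom_id _ _).symm rfl

end step

end Vale.Agent.P257.M
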