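import Vale.Agent.P257.T.GrFr
import Vale.Agent.P257.W.World
import Vale.Agent.P257.M.LES

/-!
# P257, part M: maps into objects generated in filtration degrees `≤ 0` are divisible by `t`
-/

open CategoryTheory MonoidalCategory Limits

namespace Vale.Agent.P257.M

open Vale.Agent.P251.G Vale.Agent.P251.H Vale.Agent.P251.H.StabInput
open Vale.Agent.P257.D Vale.Agent.P257.D.EF Vale.Agent.P257.C Vale.Agent.P257.T Vale.Agent.P257.K

variable {X Y K : MM}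

theorem isIso_map_of_le0 (hY : Le0 Y) {x y : JG} (w : x ⟶ y) [IsIso w.hom] (h : x.deg ≤ y.deg)
    (h0 : 0 ≤ x.deg.2) : IsIso (Y.map w) := by
  have k : ∀ x : JG, IsIso (Y.map (eap eJ x)) := fun x =>
    have : IsIso (eap eM Y) := hY
    inferInstanceAs (IsIso ((ev x).map (eap eM Y)))
  have k1 : IsIso (trJ.map w) :=
    have : IsIso (trJ.map w).hom := inferInstanceAs (IsIso w.hom)
    Gr.isIso_of_hom _ ⟨h.1.symm, by
      change min y.deg.2 0 ≤ min x.deg.2 0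
      omega⟩
  have k2 : IsIso (Y.map (trJ.map w)) := ⟨Y.map (inv (trJ.map w)),
    by rw [← Y.map_comp, IsIso.hom_inv_id, Y.map_id],
    by rw [← Y.map_comp, IsIso.inv_hom_id, Y.map_id]⟩
  have k3 : Y.map (eap eJ x) ≫ Y.map w = Y.map (trJ.map w) ≫ Y.map (eap eJ y) := by
    rw [← Y.map_comp, ← Y.map_comp, eap_nat]
  have := k x
  have := k y
  exact IsIso.of_isIso_fac_left k3

theorem degIso_curry (hY : Le0 Y) (f : ℕ) : DegIso O {g : Gam | 0 ≤ g.2}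
    (repEquiv (⟨𝟙_ O, (0, (f : ℤ))⟩ : JG) Y Y (t1 f ▷ Y ≫ (λ_ Y).hom)) := fun x hx => by
  have hle : x.deg ≤ ((0 : Lam), (f : ℤ)) + x.deg := ⟨(zero_add _).symm.le, by
    change x.deg.2 ≤ f + x.deg.2
    omega⟩
  let w : x ⟶ (⟨𝟙_ O, (0, (f : ℤ))⟩ : JG) ⊗ x := Gr.homMk (λ_ x.ob).inv hle
  have e : (repEquiv (⟨𝟙_ O, (0, (f : ℤ))⟩ : JG) Y Y (t1 f ▷ Y ≫ (λ_ Y).hom)).app x =
      Y.map w := PQ.hom_ext' fun y => by
    change fn (t1 f ▷ Y ≫ (λ_ Y).hom) (EF.tm (pr (𝟙 _)) y) = Y.act w y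
    refine (congrArg (fn (λ_ Y).hom) (whiskerRight_tm (t1 f) Y _ y)).trans
      ((leftUnitor_tm _ y).trans ?_)
    congr 1
    refine Gr.hom_ext ?_
    have : (unpr (fn (t1 f) (pr (𝟙 (⟨𝟙_ O, (0, (f : ℤ))⟩ : JG))))).hom = 𝟙 (𝟙_ O) :=
      (congrArg Gr.Hom.hom ((congrArg unpr (fn_repMap_pr _ _)).trans (unpr_pr _))).trans
        (Category.comp_id (𝟙 (𝟙_ O)))
    refine (congrArg (fun u => (λ_ x.ob).inv ≫ u ▷ x.ob) this).trans ?_
    change (λ_ x.ob).inv ≫ 𝟙 _ ▷ x.ob = (λ_ x.ob).inv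
    simp
  rw [e]
  exact @isIso_map_of_le0 Y hY _ _ w (inferInstanceAs (IsIso (λ_ x.ob).inv)) hle hx

/-- **Division by `t`.** -/
theorem bij_tX (hY : Le0 Y) (hX : Deg X {g : Gam | 0 ≤ g.2}) (f : ℕ) :
    Function.Bijective fun u : X ⟶ Y => tX X f ≫ u := by
  have h := hX.coloc _ (degIso_curry hY f)
  have e : (fun u : X ⟶ Y => tX X f ≫ u) = (fun v => (β_ _ _).hom ≫ v) ∘
      (repEquiv (⟨𝟙_ O, (0, (f : ℤ))⟩ : JG) X Y).symm ∘
      fun u : X ⟶ Y => u ≫ repEquiv (⟨𝟙_ O, (0, (f : ℤ))⟩ : JG) Y Y (t1 f ▷ Y ≫ (λ_ Y).hom) := by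
    funext u
    have k := (repAdj (⟨𝟙_ O, (0, (f : ℤ))⟩ : JG)).homEquiv_naturality_left u
      (t1 f ▷ Y ≫ (λ_ Y).hom)
    have k' : repEquiv (⟨𝟙_ O, (0, (f : ℤ))⟩ : JG) X Y (rp (0, (f : ℤ)) ◁ u ≫ t1 f ▷ Y ≫ (λ_ Y).hom) =
        u ≫ repEquiv (⟨𝟙_ O, (0, (f : ℤ))⟩ : JG) Y Y (t1 f ▷ Y ≫ (λ_ Y).hom) := by
      rw [repAdj, Adjunction.mkOfHomEquiv_homEquiv] at k
      exact k
    simp only [Function.comp_apply]
    rw [← k', Equiv.symm_apply_apply]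
    change tX X f ≫ u = (β_ X (rp (0, (f : ℤ)))).hom ≫ rp (0, (f : ℤ)) ◁ u ≫ t1 f ▷ Y ≫ (λ_ Y).hom
    rw [whisker_exchange_assoc, leftUnitor_naturality, tX,
      ← BraidedCategory.braiding_naturality_right_assoc, braiding_leftUnitor_assoc, Category.assoc]
  rw [e]
  refine Function.Bijective.comp ⟨fun _ _ k => (cancel_epi _).1 k, fun v =>
    ⟨(β_ _ _).inv ≫ v, Iso.hom_inv_id_assoc _ _⟩⟩ ((Equiv.bijective _).comp h)

theorem tX_nat (u : X ⟶ Y) (f : ℕ) : u ▷ rp (0, (f : ℤ)) ≫ tX Y f = tX X f ≫ u := by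
  rw [tX, tX, ← whisker_exchange_assoc, rightUnitor_naturality, Category.assoc]

theorem bij_tX_tensor (hY : Le0 Y) (hX : Deg X {g : Gam | 0 ≤ g.2}) (hK : Deg K {0}) (f : ℕ) :
    Function.Bijective fun u : X ⊗ K ⟶ Y => tX X f ▷ K ≫ u := by
  let e : (X ⊗ rp (0, (f : ℤ))) ⊗ K ≅ (X ⊗ K) ⊗ rp (0, (f : ℤ)) :=
    α_ _ _ _ ≪≫ whiskerLeftIso X (β_ _ _) ≪≫ (α_ _ _ _).symm
  have he : tX X f ▷ K = e.hom ≫ tX (X ⊗ K) f := by
    simp only [e, tX, Iso.trans_hom, whiskerLeftIso_hom, Iso.symm_hom, Category.assoc]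
    rw [← associator_inv_naturality_right_assoc, ← MonoidalCategory.whiskerLeft_comp_assoc,
      ← BraidedCategory.braiding_naturality_left]
    simp
  have : (fun u : X ⊗ K ⟶ Y => tX X f ▷ K ≫ u) =
      (fun v => e.hom ≫ v) ∘ fun u : X ⊗ K ⟶ Y => tX (X ⊗ K) f ≫ u := by
    funext u
    rw [he, Category.assoc]
    rfl
  rw [this]
  exact Function.Bijective.comp ⟨fun _ _ k => (cancel_epi _).1 k, fun v =>
    ⟨e.inv ≫ v, Iso.hom_inv_id_assoc _ _⟩⟩ (bij_tX hY (hX.tensor_zero hK) f)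

theorem exists_pw_tensor {M : Type*} [Category* M] [MonoidalCategory M] [SymmetricCategory M]
    [MonoidalClosed M] [HasZeroMorphisms M] [HasColimitsOfSize.{0, 0} M] [StabInput M]
    (D : Stab M) (k : ℕ) (X Y : M) : ∃ e : D.pw k X ⊗ Y ≅ D.pw k (X ⊗ Y),
      e.hom ≫ D.tk k (X ⊗ Y) = D.tk k X ▷ Y := by
  induction k with
  | zero => exact ⟨Iso.refl _, by simp⟩
  | succ k ih =>
    obtain ⟨e, he⟩ := ih
    refine ⟨α_ _ _ _ ≪≫ whiskerLeftIso D.U e, ?_⟩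
    rw [D.tk_succ, D.tk_succ, Iso.trans_hom, whiskerLeftIso_hom, Category.assoc, D.t_nat_assoc, he,
      comp_whiskerRight, ← Category.assoc]
    congr 1
    simp [Stab.t]

end Vale.Agent.P257.M
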