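import Vale.Agent.P257.M.Per
import Vale.Agent.P257.M.DivS
import Vale.Agent.P257.W.Lift

/-!
# P257, part M: the inductive step

`Core.step` : one more cell is attached.
-/

open CategoryTheory MonoidalCategory Limits

namespace Vale.Agent.P257.M

open Vale.Agent.P251.G Vale.Agent.P251.H Vale.Agent.P251.H.StabInput
open Vale.Agent.P257.A Vale.Agent.P257.T Vale.Agent.P257.V Vale.Agent.P257.W Vale.Agent.P257.K
open Vale.Agent.P257.N (NZ UN SM kT kP kφ CX)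
open Vale.Agent.P257.F (DH sH RH RM FW)
open Equiv (Perm)

universe w

variable {p : ℕ} [hp : Fact p.Prime] {n lam i : ℕ}

theorem Num.up_llp (h : Num p n lam) {R R₁ B : CommMon MM} {g₁ : R ⟶ R₁} {g₂ : R₁ ⟶ B} {X : MM}
    {x : cone (tX X (lam ^ i)) ⟶ R₁.X} {χ : cone (tX X (lam ^ i)) ⊗ CI MM ⟶ B.X}
    (h1 : Ext (NuX p) (2 ^ i - 1) g₁) (h2 : NF X (ee i, 0) (dd p i - 2)) (h3 : IsAttach g₂ x χ) :
    UP (sE p) (tE p) (pa p n lam) (g₁ ≫ g₂) ((2 ^ n + 1) * lam ^ i) (2 ^ i : ℕ) := by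
  have H := W.worldE hp.out
  have := h.top
  refine ((H.up_ext h.lm_lt (fun _ k => k) h1).comp (H.up_pair (by omega) h.lm_lt h.lm_lt' h3 h2
    (Nat.one_le_pow _ _ (by have := h.two_le; omega)))).mono (by omega) ?_
  rw [add_zero]
  exact Int.ofNat_le.2 (Nat.sub_le _ _)

omit hp in
theorem bd_le (j : ℕ) : bd p (p • ee j) ≤ p * (dd p (j + 1) - 1 + 1) := by
  rw [bd_apply, map_nsmul, map_nsmul, map_nsmul, DD_ee, sz_ee, ell_ee, dd, dd, nsmul_eq_mul,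
    nsmul_eq_mul, nsmul_eq_mul, pow_succ]
  have : (1 : ℤ) ≤ 2 ^ j := one_le_pow₀ one_le_two
  nlinarith [Int.natCast_nonneg p]

variable {ι : Type} [Finite ι] [Nontrivial ι] [hι : Fact (Nat.card ι = p)]
  {hl : lam ≤ Nat.card ι} {j : ℕ}

omit hp hι [Nontrivial ι] in
theorem kφ_hom {B B' : CommMon MM} {a : NZ (SM ι) B} {b : NZ (SM ι) B'} {u : B ⟶ B'}
    (k : NZ.Hom u a b) : (kT ι p).map ((sE p).map (ah k.n)) ≫ kφ p b.φ =
      kφ p a.φ ≫ (Kl.ks _).map ((sH ι p).map (ah k.z)) := by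
  rw [← N.kf_map, ← k.φ_z, N.kf_comp]
  rfl

variable {MU : EE p} [MonObj MU] {A₀ : Type w} [CommRing A₀] {G₀ : L.RegSeq p A₀}
  (Co : L.Coef (SC.sph (De p)) MU G₀)

/-- **The inductive step.** -/
theorem Core.step [DecidableEq ι] (h : Num p n lam) (C : CX ι p) (hG : Glue ι n lam hl Co)
    (hj : j < n) (σ : Core ι p n lam hl j) (hd : σ.Det Co) :
    ∃ σ' : Core ι p n lam hl (j + 1), σ'.Det Co := by
  obtain ⟨Y, q, X, y, t, f, hY, hX, ht, hf, hv, hF, hF'⟩ := σ.exists_next h C hG hj hd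
  have hP : ((lam ^ (n + 1) : ℕ) : ℤ) < p := Int.ofNat_lt.2 (h.pow_lt le_rfl)
  have hw : 1 ≤ lam ^ (j + 1) := Nat.one_le_pow _ _ (by have := h.two_le; omega)
  obtain ⟨e⟩ := hX.iso p
  obtain ⟨v, -, h1, h2⟩ := exists_per Co σ.tc1.i0 (p • ee j) (ee (j + 1)) _ _ e
    ((sE p).map (y ≫ ah σ.fold))
  obtain ⟨b, T', B', R₁, s, sp', r, g₁, g₂, X₁, x₁, χ₁, ε, hA, hs, hε, hg, e1, e2, e3⟩ :=
    LLP hp.out h.two_le ⟨le0_T0, posT_T0⟩ σ.c1 σ.good (h.pow_lt (by omega)) v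
  have hu := h.up_llp e1 e2 e3
  rw [hg] at hu
  obtain ⟨a₁, k, hk⟩ := σ.un.ex (b.g ≫ r.i)
  have w₁ : σ.nz.β ≫ σ.fold ≫ s.i = (b.g ≫ r.i) ≫ sp' := by
    rw [reassoc_of% σ.hfold, Category.assoc, r.hi, reassoc_of% b.hg]
  have z₁ : (sE p).map ((y ≫ ah k.n) ≫ ah (hk.1.desc _ _ w₁)) = 0 := by
    rw [Category.assoc, ← ah_comp, hk.1.inl_desc, ah_comp, ← Category.assoc, Functor.map_comp]
    refine h2 _ _ ?_
    rw [← cancel_epi ε.hom, ← Category.assoc, ← hε, ← Functor.map_comp, ← s.att.w, comp_zero]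
    exact N.st_cone_zero _ _
  obtain ⟨X', u, χ', hX', hu', hχ'⟩ := hX.null z₁
  obtain ⟨a₂, l, X'', u', χ, hX'', -, att, un₂, z₂⟩ := (σ.un.bc hk).sigma C hP hX' (even_dd _ _)
    (Int.ofNat_le.2 hw) (by rw [map_nsmul, ell_ee]; positivity) hY
    (q ≫ (sH ι p).map (ah k.z)) (u ≫ y ≫ ah k.n)
    ((kT ι p).mapIso (asIso ((sE p).map u)) ≪≫ t) (by
      rw [Functor.map_comp, Functor.map_comp, Functor.map_comp, Functor.map_comp, Category.assoc,
        Category.assoc, kφ_hom, ← Category.assoc ((kT ι p).map ((sE p).map y)), ht,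
        Functor.map_comp, Iso.trans_hom, Category.assoc, Category.assoc]
      rfl)
  obtain ⟨fold, f1, -⟩ := att.desc (hk.1.desc _ _ w₁) (u' ▷ CI MM ≫ χ') (by
    rw [coneBase_naturality_assoc, hχ']
    simp only [Category.assoc])
  obtain ⟨Z, z, κ, hκ, un₃⟩ := un₂.kappa C hP (σ.Fv ≫ ah (k.z ≫ l.z)) (by
    rw [Functor.map_comp, ← hf, ah_comp, Functor.map_comp, Category.assoc,
      ← Category.assoc q, z₂, comp_zero]) hF hF'
  obtain ⟨F₁, hF₁, -⟩ := σ.hFr.att σ.r.att ((k.z ≫ l.z) ≫ z) κ (by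
    rw [hκ, Category.assoc, ← ah_comp])
  have hβ : a₁.β ≫ l.n = a₂.β := l.hβ.trans (Category.id_comp _)
  have hγ : a₁.γ ≫ l.z = a₂.γ := by rw [l.hγ, N.trivMap_id, Category.id_comp]
  obtain ⟨F₂, hF₂, -⟩ := hF₁.bc hA.le0 b.po (z := 𝟙 Z)
    (γ' := trivMap (Perm ι) (b.c'.i0 ≫ r.i) ≫ a₂.γ ≫ z) (by
      rw [Category.comp_id, Category.assoc, Category.assoc, reassoc_of% k.hγ,
        reassoc_of% hγ, ← Category.assoc, ← Category.assoc (trivMap _ b.f), ← N.trivMap_comp,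
        ← N.trivMap_comp, ← Category.assoc b.f, ← b.po.w, Category.assoc]
      rfl)
  refine ⟨⟨b.A', b.sp0', σ.T1, T', σ.tc1, s, hs, b.R', B', b.sp', sp', b.c', r, hA, a₂.ext z,
    ?_, fold, ?_, F₂, hF₂, ?_, ?_⟩, ?_⟩
  · rwa [Wt_succ, Nat.cast_add]
  · change a₂.β ≫ fold = sp'
    rw [← hβ, Category.assoc, f1, hk.1.inr_desc]
  · rw [UP0, Subsingleton.elim default (default ≫ b.g ≫ r.i), Wt_succ, mul_add]
    exact (UP.comp σ.upB hu).mono le_rfl (by push_cast; omega)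
  · change UP0 p n lam a₂.N _ _
    rw [UP0, Subsingleton.elim default ((default ≫ k.n) ≫ l.n), Wt_succ, mul_add]
    exact ((UP.comp σ.upN (hu.bc hk.1.flip)).comp ((W.worldE hp.out).up_odd (h.pow_lt le_rfl) att hX''
      (even_dd _ _) hw (by rw [map_nsmul, ell_ee]; positivity) (bd_le j))).mono (le_of_eq (by ring))
      (by push_cast; omega)
  · exact And.intro hd (show DetV Co (j + 1) σ.tc1.i0 (ee (j + 1)) (lam ^ (j + 1))
      ((sE p).map s.v) from hε ▸ (h1 _ hv).iso ε)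

end Vale.Agent.P257.M
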