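import Vale.Agent.P257.M.Defs

/-!
# P257, part M: chains of cell attachments

* `TC ok T0 i T` : `T` is obtained from `T0` by attaching `i` cells, the cell number `j` along a
  map out of an object with the property `ok j`;
* `RC A sp0 tc R sp` : a lift of the chain `tc` along `sp0 : A ⟶ T0`;
* `RC.bc` : base change along an algebra map `A ⟶ A'` over `T0`;
* `Ext ok n f` : `f` is a composition of at most `n` cell attachments.
-/

open CategoryTheory MonoidalCategory Limits MonObj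

namespace Vale.Agent.P257.M

open Vale.Agent.P251.G Vale.Agent.P251.H Vale.Agent.P251.H.LP Vale.Agent.P251.H.StabInput
open Vale.Agent.P257.A

universe v u

variable {M : Type u} [Category.{v} M] [MonoidalCategory M] [SymmetricCategory M]
    [MonoidalClosed M] [HasZeroMorphisms M] [HasColimitsOfSize.{0, 0} M] [StabInput M]

/-- one cell attachment -/
structure TStep (T T' : CommMon M) where
  /-- the source of the attaching map -/
  X : M
  /-- the attaching map -/
  v : X ⟶ T.X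
  /-- the inclusion -/
  i : T ⟶ T'
  /-- the characteristic map -/
  χ : X ⊗ CI M ⟶ T'.X
  att : IsAttach i v χ

/-- chains of cell attachments -/
inductive TC (ok : ℕ → M → Prop) (T0 : CommMon M) : ℕ → CommMon M → Type (max u v)
  | nil : TC ok T0 0 T0
  | cons {i : ℕ} {T T' : CommMon M} (c : TC ok T0 i T) (s : TStep T T') (h : ok i s.X) :
      TC ok T0 (i + 1) T'

variable {ok : ℕ → M → Prop} {T0 : CommMon M}

/-- the map from the bottom to the top of a chain -/
def TC.i0 : {i : ℕ} → {T : CommMon M} → TC ok T0 i T → (T0 ⟶ T)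
  | _, _, .nil => 𝟙 T0
  | _, _, .cons c s _ => c.i0 ≫ s.i

/-- A property holds for all cells of a chain. -/
def TC.All (Q : ∀ (_ : ℕ) (T T' : CommMon M), (T0 ⟶ T) → TStep T T' → Prop) :
    {i : ℕ} → {T : CommMon M} → TC ok T0 i T → Prop
  | _, _, .nil => True
  | _, _, .cons (i := i) (T := T) (T' := T') c s _ => c.All Q ∧ Q i T T' c.i0 s

/-- a lift of a cell attachment -/
structure RStep {T T' : CommMon M} (s : TStep T T') {R R' : CommMon M} (sp : R ⟶ T)
    (sp' : R' ⟶ T') where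
  /-- the attaching map -/
  v : s.X ⟶ R.X
  /-- the inclusion -/
  i : R ⟶ R'
  /-- the characteristic map -/
  χ : s.X ⊗ CI M ⟶ R'.X
  att : IsAttach i v χ
  hv : v ≫ ah sp = s.v
  hi : i ≫ sp' = sp ≫ s.i
  hχ : χ ≫ ah sp' = s.χ

/-- lifts of chains -/
inductive RC (A : CommMon M) (sp0 : A ⟶ T0) :
    {i : ℕ} → {T : CommMon M} → TC ok T0 i T → (R : CommMon M) → (R ⟶ T) → Type (max u v)
  | nil : RC A sp0 .nil A sp0
  | cons {i : ℕ} {T T' : CommMon M} {tc : TC ok T0 i T} {R R' : CommMon M} {sp : R ⟶ T}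
      {sp' : R' ⟶ T'} (c : RC A sp0 tc R sp) (s : TStep T T') (h : ok i s.X)
      (r : RStep s sp sp') : RC A sp0 (.cons tc s h) R' sp'

variable {A A' : CommMon M} {sp0 : A ⟶ T0} {sp0' : A' ⟶ T0}

/-- the map from the bottom to the top of a lifted chain -/
def RC.i0 : {i : ℕ} → {T : CommMon M} → {tc : TC ok T0 i T} → {R : CommMon M} → {sp : R ⟶ T} →
    RC A sp0 tc R sp → (A ⟶ R)
  | _, _, _, _, _, .nil => 𝟙 A
  | _, _, _, _, _, .cons c _ _ r => c.i0 ≫ r.i

theorem RC.i0_sp {i : ℕ} {T : CommMon M} {tc : TC ok T0 i T} {R : CommMon M} {sp : R ⟶ T}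
    (c : RC A sp0 tc R sp) : c.i0 ≫ sp = sp0 ≫ tc.i0 := by
  induction c with
  | nil => exact (Category.id_comp _).trans (Category.comp_id _).symm
  | cons c s h r ih =>
    change (c.i0 ≫ r.i) ≫ _ = sp0 ≫ _ ≫ s.i
    rw [Category.assoc, r.hi, reassoc_of% ih]

/-- A lifted cell can be attached again after a base change. -/
theorem RStep.bc {T T' : CommMon M} {s : TStep T T'} {R R' Q : CommMon M} {sp : R ⟶ T}
    {sp' : R' ⟶ T'} (r : RStep s sp sp') {sq : Q ⟶ T} (g : R ⟶ Q) (hg : g ≫ sq = sp) :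
    ∃ (Q' : CommMon M) (sq' : Q' ⟶ T') (r' : RStep s sq sq') (g' : R' ⟶ Q'),
      r'.v = r.v ≫ ah g ∧ r.χ ≫ ah g' = r'.χ ∧ g' ≫ sq' = sp' ∧ IsPushout r.i g g' r'.i := by
  obtain ⟨Q', i', χ', h'⟩ := exists_isAttach (r.v ≫ ah g)
  have hv : (r.v ≫ ah g) ≫ ah sq = s.v := by rw [Category.assoc, ← ah_comp, hg, r.hv]
  obtain ⟨sq', h1, h2⟩ := h'.desc (sq ≫ s.i) s.χ (by rw [s.att.w, ah_comp, ← hv, Category.assoc, Category.assoc])
  obtain ⟨g', h3, h4⟩ := r.att.desc (g ≫ i') χ' (by rw [h'.w, ah_comp, Category.assoc])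
  refine ⟨Q', sq', ⟨r.v ≫ ah g, i', χ', h', hv, h1, h2⟩, g', rfl, h4, r.att.ext ?_ ?_,
    r.att.isPushout h' h3 h4⟩
  · rw [reassoc_of% h3, h1, reassoc_of% hg, r.hi]
  · rw [ah_comp, reassoc_of% h4, h2, r.hχ]

/-- **Base change of a lifted chain.** -/
theorem RC.bc {i : ℕ} {T : CommMon M} {tc : TC ok T0 i T} {R : CommMon M} {sp : R ⟶ T}
    (c : RC A sp0 tc R sp) (f : A ⟶ A') (hf : f ≫ sp0' = sp0) :
    ∃ (R' : CommMon M) (sp' : R' ⟶ T) (c' : RC A' sp0' tc R' sp') (g : R ⟶ R'),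
      g ≫ sp' = sp ∧ IsPushout c.i0 f g c'.i0 := by
  induction c with
  | nil =>
    refine ⟨A', sp0', .nil, f, hf, ?_⟩
    change IsPushout (𝟙 A) f f (𝟙 A')
    exact IsPushout.of_horiz_isIso ⟨(Category.id_comp f).trans (Category.comp_id f).symm⟩
  | cons c s h r ih =>
    obtain ⟨Q, sq, c', g, hg, H⟩ := ih
    obtain ⟨Q', sq', r', g', -, -, h3, h4⟩ := r.bc g hg
    exact ⟨Q', sq', .cons c' s h r', g', h3, H.paste_horiz h4⟩

/-- compositions of at most `n` cell attachments -/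
inductive Ext (ok : M → Prop) : ℕ → {A A' : CommMon M} → (A ⟶ A') → Prop
  | iso (n : ℕ) {A A' : CommMon M} (f : A ⟶ A') [IsIso f] : Ext ok n f
  | step {n : ℕ} {A A' A'' : CommMon M} {f : A ⟶ A'} (h : Ext ok n f) (s : TStep A' A'')
      (hs : ok s.X) : Ext ok (n + 1) (f ≫ s.i)

namespace Ext

variable {P Q : M → Prop} {m n : ℕ} {B B' B'' : CommMon M}

theorem mono_pred {f : B ⟶ B'} (h : Ext P n f) (k : ∀ X, P X → Q X) : Ext Q n f := by
  induction h with
  | iso n f => exact .iso n f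
  | step _ s hs ih => exact .step ih s (k _ hs)

theorem succ {f : B ⟶ B'} (h : Ext P n f) : Ext P (n + 1) f := by
  induction h with
  | iso n f => exact .iso _ f
  | step _ s hs ih => exact .step ih s hs

theorem mono {f : B ⟶ B'} (h : Ext P m f) (k : m ≤ n) : Ext P n f := by
  induction n, k using Nat.le_induction with
  | base => exact h
  | succ n _ ih => exact ih.succ

theorem comp_iso {f : B ⟶ B'} (h : Ext P n f) (g : B' ⟶ B'') [IsIso g] : Ext P n (f ≫ g) := by
  cases h with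
  | iso => exact .iso _ _
  | step h s hs =>
    rw [Category.assoc]
    exact .step h ⟨s.X, s.v, s.i ≫ g, s.χ ≫ ah g, s.att.comp_iso (asIso g)⟩ hs

theorem trans {f : B ⟶ B'} (h : Ext P m f) {g : B' ⟶ B''} (k : Ext P n g) :
    Ext P (m + n) (f ≫ g) := by
  induction k with
  | iso n g => exact (h.comp_iso g).mono (Nat.le_add_right _ _)
  | step _ s hs ih =>
    rw [← Category.assoc]
    exact .step (ih h) s hs

theorem single (s : TStep B B') (hs : P s.X) : Ext P 1 s.i := by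
  simpa using (Ext.iso (ok := P) 0 (𝟙 B)).step s hs

/-- Cell attachments can be pushed forward along any algebra map. -/
theorem exists_isPushout {f : B ⟶ B'} (h : Ext P n f) {C : CommMon M} (u : B ⟶ C) :
    ∃ (C' : CommMon M) (g : C ⟶ C') (u' : B' ⟶ C'), IsPushout f u u' g ∧ Ext P n g := by
  induction h with
  | iso n f => exact ⟨C, 𝟙 C, inv f ≫ u, IsPushout.of_horiz_isIso ⟨by simp⟩, .iso _ _⟩
  | step _ s hs ih =>
    obtain ⟨C', g, u', H, k⟩ := ih u
    obtain ⟨C'', i', χ', h'⟩ := exists_isAttach (s.v ≫ ah u')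
    obtain ⟨u'', h3, h4⟩ := s.att.desc (u' ≫ i') χ' (by rw [h'.w, ah_comp, Category.assoc])
    exact ⟨C'', g ≫ i', u'', H.paste_horiz (s.att.isPushout h' h3 h4),
      .step k ⟨s.X, _, i', χ', h'⟩ hs⟩

theorem of_isPushout {f : B ⟶ B'} (h : Ext P n f) {C C' : CommMon M} {u : B ⟶ C} {g : C ⟶ C'}
    {u' : B' ⟶ C'} (H : IsPushout f u u' g) : Ext P n g := by
  obtain ⟨C₁, g₁, u₁, H₁, k⟩ := h.exists_isPushout u
  have e : g₁ ≫ (H₁.isoIsPushout _ _ H).hom = g := IsPushout.inr_isoIsPushout_hom _ _ _ _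
  rw [← e]
  exact k.comp_iso _

/-- induction along the cells -/
theorem induction {f : B ⟶ B'} (h : Ext P n f) (Z : ℕ → CommMon M → Prop)
    (hm : ∀ k C, Z k C → Z (k + 1) C) (hi : ∀ k C C', (C ≅ C') → Z k C → Z k C')
    (hs : ∀ k C C' (s : TStep C C'), P s.X → Z k C → Z (k + 1) C') {k : ℕ} (h0 : Z k B) :
    Z (k + n) B' := by
  induction h with
  | iso n f =>
    refine hi _ _ _ (asIso f) ?_
    induction n with
    | zero => exact h0
    | succ n ih => exact hm _ _ ih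
  | step _ s h ih => exact hs _ _ _ s h (ih h0)

end Ext

end Vale.Agent.P257.M
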