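import Vale.Agent.P257.M.Glue

/-!
# P257, part M: functorial mapping cones and the interchange of two cones
-/

open CategoryTheory MonoidalCategory Limits

namespace Vale.Agent.P257.M

open Vale.Agent.P251.G Vale.Agent.P251.H Vale.Agent.P251.H.LP Vale.Agent.P251.H.StabInput

universe v u

variable {M : Type u} [Category.{v} M] [MonoidalCategory M] [SymmetricCategory M]
    [MonoidalClosed M] [HasZeroMorphisms M] [HasColimitsOfSize.{0, 0} M] [StabInput M]

section basic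

variable {X Y : M} (f : X ⟶ Y)

/-- the mapping cone -/
noncomputable def cone : M := pushout (coneBase X) f

/-- the cone part of the mapping cone -/
noncomputable def ck : X ⊗ CI M ⟶ cone f := pushout.inl _ _

/-- the inclusion of the target into the mapping cone -/
noncomputable def ci : Y ⟶ cone f := pushout.inr _ _

theorem isPushout_cone : IsPushout (coneBase X) f (ck f) (ci f) := IsPushout.of_hasPushout _ _

@[reassoc]
theorem coneBase_ck : coneBase X ≫ ck f = f ≫ ci f := (isPushout_cone f).w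

variable {f} in
/-- maps out of the mapping cone -/
noncomputable def cdesc {Z : M} (χ : X ⊗ CI M ⟶ Z) (g : Y ⟶ Z) (h : coneBase X ≫ χ = f ≫ g) :
    cone f ⟶ Z := (isPushout_cone f).desc χ g h

@[reassoc (attr := simp)]
theorem ck_cdesc {Z : M} (χ : X ⊗ CI M ⟶ Z) (g : Y ⟶ Z) (h : coneBase X ≫ χ = f ≫ g) :
    ck f ≫ cdesc χ g h = χ := (isPushout_cone f).inl_desc _ _ _

@[reassoc (attr := simp)]
theorem ci_cdesc {Z : M} (χ : X ⊗ CI M ⟶ Z) (g : Y ⟶ Z) (h : coneBase X ≫ χ = f ≫ g) :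
    ci f ≫ cdesc χ g h = g := (isPushout_cone f).inr_desc _ _ _

variable {f} in
theorem cone_ext {Z : M} {a b : cone f ⟶ Z} (h1 : ck f ≫ a = ck f ≫ b)
    (h2 : ci f ≫ a = ci f ≫ b) : a = b := (isPushout_cone f).hom_ext h1 h2

/-- the collapse of the mapping cone -/
noncomputable def cq : cone f ⟶ X ⊗ S M :=
  cdesc (ccoll X) 0 (by rw [coneBase_ccoll, comp_zero])

@[reassoc (attr := simp)]
theorem ck_cq : ck f ≫ cq f = ccoll X := ck_cdesc _ _ _ _

@[reassoc (attr := simp)]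
theorem ci_cq : ci f ≫ cq f = 0 := ci_cdesc _ _ _ _

theorem isCone_cone : IsCone f (ck f) (ci f) (cq f) := ⟨isPushout_cone f, ck_cq f, ci_cq f⟩

end basic

section map

variable {X Y X' Y' X'' Y'' : M} {f : X ⟶ Y} {f' : X' ⟶ Y'} {f'' : X'' ⟶ Y''}

/-- functoriality of the mapping cone -/
noncomputable def coneMap (a : X ⟶ X') (b : Y ⟶ Y') (w : f ≫ b = a ≫ f') : cone f ⟶ cone f' :=
  cdesc (a ▷ CI M ≫ ck f') (b ≫ ci f') (by
    rw [coneBase_naturality_assoc, coneBase_ck, reassoc_of% w])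

@[reassoc (attr := simp)]
theorem ck_coneMap (a : X ⟶ X') (b : Y ⟶ Y') (w : f ≫ b = a ≫ f') :
    ck f ≫ coneMap a b w = a ▷ CI M ≫ ck f' := ck_cdesc _ _ _ _

@[reassoc (attr := simp)]
theorem ci_coneMap (a : X ⟶ X') (b : Y ⟶ Y') (w : f ≫ b = a ≫ f') :
    ci f ≫ coneMap a b w = b ≫ ci f' := ci_cdesc _ _ _ _

@[reassoc]
theorem coneMap_cq (a : X ⟶ X') (b : Y ⟶ Y') (w : f ≫ b = a ≫ f') :
    coneMap a b w ≫ cq f' = cq f ≫ a ▷ S M := by
  apply cone_ext
  · simp [ccoll_naturality]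
  · simp

@[reassoc]
theorem coneMap_comp (a : X ⟶ X') (b : Y ⟶ Y') (w : f ≫ b = a ≫ f') (a' : X' ⟶ X'')
    (b' : Y' ⟶ Y'') (w' : f' ≫ b' = a' ≫ f'') :
    coneMap a b w ≫ coneMap a' b' w' = coneMap (a ≫ a') (b ≫ b') (by
      rw [reassoc_of% w, w', Category.assoc]) := by
  apply cone_ext <;> simp

theorem coneMap_id : coneMap (𝟙 X) (𝟙 Y) (f := f) (f' := f) (by simp) = 𝟙 _ := by
  apply cone_ext <;> simp

theorem coneMap_congr {a a' : X ⟶ X'} {b b' : Y ⟶ Y'} (w : f ≫ b = a ≫ f') (ha : a = a')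
    (hb : b = b') : coneMap a b w = coneMap a' b' (ha ▸ hb ▸ w) := by
  subst ha hb; rfl

end map

section tensor

variable {X Y : M} (f : X ⟶ Y) (W : M)

/-- moving the cone coordinate past a factor -/
noncomputable def swapR (X W : M) : (X ⊗ W) ⊗ CI M ≅ (X ⊗ CI M) ⊗ W :=
  α_ _ _ _ ≪≫ whiskerLeftIso X (β_ _ _) ≪≫ (α_ _ _ _).symm

@[reassoc]
theorem coneBase_swapR (X W : M) : coneBase (X ⊗ W) ≫ (swapR X W).hom = coneBase X ▷ W :=
  swap_aux X _ _ ptHH

@[reassoc]
theorem swapR_naturality {X X' W W' : M} (a : X ⟶ X') (b : W ⟶ W') :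
    (a ⊗ₘ b) ▷ CI M ≫ (swapR X' W').hom = (swapR X W).hom ≫ (a ▷ CI M ⊗ₘ b) := by
  simp only [swapR, Iso.trans_hom, whiskerLeftIso_hom, Iso.symm_hom, Category.assoc, tensorHom_def,
    comp_whiskerRight]
  rw [associator_naturality_middle_assoc, associator_naturality_left_assoc,
    ← MonoidalCategory.whiskerLeft_comp_assoc, BraidedCategory.braiding_naturality_left,
    MonoidalCategory.whiskerLeft_comp_assoc, associator_inv_naturality_right,
    ← whisker_exchange_assoc, associator_inv_naturality_left_assoc]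

@[reassoc]
theorem swapR_naturality_left {X X' : M} (a : X ⟶ X') (W : M) :
    (a ▷ W) ▷ CI M ≫ (swapR X' W).hom = (swapR X W).hom ≫ (a ▷ CI M) ▷ W := by
  simpa using swapR_naturality a (𝟙 W)

/-- the mapping cone commutes with tensor products -/
theorem isPushout_cone_whiskerRight :
    IsPushout (coneBase (X ⊗ W)) (f ▷ W) ((swapR X W).hom ≫ ck f ▷ W) (ci f ▷ W) := by
  refine (StabInput.isPushout_whiskerRight W (isPushout_cone f)).of_iso (Iso.refl _)
    (swapR X W).symm (Iso.refl _) (Iso.refl _) ?_ (by simp) (by simp) (by simp)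
  rw [Iso.symm_hom, Iso.comp_inv_eq, Iso.refl_hom, Category.id_comp, coneBase_swapR]

/-- the mapping cone commutes with tensor products -/
noncomputable def coneTensor : cone (f ▷ W) ≅ cone f ⊗ W :=
  (isPushout_cone (f ▷ W)).isoIsPushout _ _ (isPushout_cone_whiskerRight f W)

@[reassoc (attr := simp)]
theorem ck_coneTensor : ck (f ▷ W) ≫ (coneTensor f W).hom = (swapR X W).hom ≫ ck f ▷ W :=
  IsPushout.inl_isoIsPushout_hom _ _ _ _

@[reassoc (attr := simp)]
theorem ci_coneTensor : ci (f ▷ W) ≫ (coneTensor f W).hom = ci f ▷ W :=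
  IsPushout.inr_isoIsPushout_hom _ _ _ _

@[reassoc]
theorem coneTensor_naturality {X' Y' : M} {f : X ⟶ Y} {f' : X' ⟶ Y'} (a : X ⟶ X') (b : Y ⟶ Y')
    (w : f ≫ b = a ≫ f') :
    coneMap (a ▷ W) (b ▷ W) (f := f ▷ W) (f' := f' ▷ W)
        (by rw [← comp_whiskerRight, w, comp_whiskerRight]) ≫ (coneTensor f' W).hom =
      (coneTensor f W).hom ≫ coneMap a b w ▷ W := by
  apply cone_ext
  · rw [ck_coneMap_assoc, ck_coneTensor, ck_coneTensor_assoc, swapR_naturality_left_assoc,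
      ← comp_whiskerRight, ← comp_whiskerRight, ck_coneMap]
  · rw [ci_coneMap_assoc, ci_coneTensor, ci_coneTensor_assoc, ← comp_whiskerRight,
      ← comp_whiskerRight, ci_coneMap]

end tensor

section interchange

variable {X₁ X₂ Y₁ Y₂ : M} {f₁ : X₁ ⟶ Y₁} {f₂ : X₂ ⟶ Y₂} {a : X₁ ⟶ X₂} {b : Y₁ ⟶ Y₂}
  (w : f₁ ≫ b = a ≫ f₂)

theorem cone_whiskerRight_ext {X Y W Z : M} {f : X ⟶ Y} {s t : cone f ⊗ W ⟶ Z}
    (h1 : ck f ▷ W ≫ s = ck f ▷ W ≫ t) (h2 : ci f ▷ W ≫ s = ci f ▷ W ≫ t) : s = t :=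
  (StabInput.isPushout_whiskerRight W (isPushout_cone f)).hom_ext h1 h2

/-- the inclusion of the cone of `b` into the iterated cone -/
noncomputable def icI : cone b ⟶ cone (coneMap a b w) :=
  cdesc (ci f₁ ▷ CI M ≫ ck _) (ci f₂ ≫ ci _) (by
    rw [coneBase_naturality_assoc, coneBase_ck, ci_coneMap_assoc])

@[reassoc (attr := simp)]
theorem ck_icI : ck b ≫ icI w = ci f₁ ▷ CI M ≫ ck _ := ck_cdesc _ _ _ _

@[reassoc (attr := simp)]
theorem ci_icI : ci b ≫ icI w = ci f₂ ≫ ci _ := ci_cdesc _ _ _ _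

/-- the map from the cone on the cone of `a` into the iterated cone -/
noncomputable def icK : cone a ⊗ CI M ⟶ cone (coneMap a b w) :=
  (StabInput.isPushout_whiskerRight (CI M) (isPushout_cone a)).desc
    ((swapCI X₁).hom ≫ ck f₁ ▷ CI M ≫ ck _) (ck f₂ ≫ ci _) (by
      rw [coneBase_whiskerRight_swapCI_assoc, coneBase_naturality_assoc, coneBase_ck,
        ck_coneMap_assoc])

@[reassoc (attr := simp)]
theorem ck_icK : ck a ▷ CI M ≫ icK w = (swapCI X₁).hom ≫ ck f₁ ▷ CI M ≫ ck _ :=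
  IsPushout.inl_desc _ _ _ _

@[reassoc (attr := simp)]
theorem ci_icK : ci a ▷ CI M ≫ icK w = ck f₂ ≫ ci _ := IsPushout.inr_desc _ _ _ _

/-- **Interchange of cones.** -/
theorem isPushout_ic :
    IsPushout (coneBase (cone a)) (coneMap f₁ f₂ w.symm) (icK w) (icI w) := by
  have hw : coneBase (cone a) ≫ icK w = coneMap f₁ f₂ w.symm ≫ icI w := by
    apply cone_ext
    · rw [← coneBase_naturality_assoc, ck_icK, coneBase_swapCI_assoc, ck_coneMap_assoc, ck_icI,
        ← comp_whiskerRight_assoc, coneBase_ck, comp_whiskerRight_assoc]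
    · rw [← coneBase_naturality_assoc, ci_icK, coneBase_ck_assoc, ci_coneMap_assoc, ci_icI]
  refine ⟨⟨hw⟩, ⟨PushoutCocone.IsColimit.mk _ (fun s => ?_) (fun s => ?_) (fun s => ?_)
    (fun s m h1 h2 => ?_)⟩⟩
  · refine cdesc ((StabInput.isPushout_whiskerRight (CI M) (isPushout_cone f₁)).desc
      ((swapCI X₁).hom ≫ ck a ▷ CI M ≫ s.inl) (ck b ≫ s.inr) ?_)
      (cdesc (ci a ▷ CI M ≫ s.inl) (ci b ≫ s.inr) ?_) ?_
    · rw [coneBase_whiskerRight_swapCI_assoc, coneBase_naturality_assoc, s.condition,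
        ck_coneMap_assoc]
    · rw [coneBase_naturality_assoc, s.condition, ci_coneMap_assoc]
    · apply cone_ext
      · rw [← coneBase_naturality_assoc, IsPushout.inl_desc, coneBase_swapCI_assoc,
          ck_coneMap_assoc, ck_cdesc, ← comp_whiskerRight_assoc, coneBase_ck,
          comp_whiskerRight_assoc]
      · rw [← coneBase_naturality_assoc, IsPushout.inr_desc, coneBase_ck_assoc, ci_coneMap_assoc,
          ci_cdesc]
  · apply cone_whiskerRight_ext
    · rw [ck_icK_assoc, ck_cdesc, IsPushout.inl_desc, ← Category.assoc, swapCI_swapCI,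
        Category.id_comp]
    · rw [ci_icK_assoc, ci_cdesc, ck_cdesc]
  · apply cone_ext
    · rw [ck_icI_assoc, ck_cdesc, IsPushout.inr_desc]
    · rw [ci_icI_assoc, ci_cdesc, ci_cdesc]
  · apply cone_ext
    · rw [ck_cdesc]
      apply cone_whiskerRight_ext
      · rw [IsPushout.inl_desc, ← h1, ck_icK_assoc, ← Category.assoc (swapCI X₁).hom,
          swapCI_swapCI, Category.id_comp]
      · rw [IsPushout.inr_desc, ← h2, ck_icI_assoc]
    · rw [ci_cdesc]
      apply cone_ext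
      · rw [ck_cdesc, ← h1, ci_icK_assoc]
      · rw [ci_cdesc, ← h2, ci_icI_assoc]

end interchange

section rel

variable {X X' A T A' T' : M} {f : A ⟶ T} {f' : A' ⟶ T'}

/-- the relative class of a map with a null homotopy of its image -/
noncomputable def rel (f : A ⟶ T) (o : X ⟶ A) (η : X ⊗ CI M ⟶ T) (h : coneBase X ≫ η = o ≫ f) :
    X ⊗ S M ⟶ cone f :=
  glue (o ▷ CI M ≫ ck f) (η ≫ ci f) (by
    rw [coneBase_naturality_assoc, coneBase_ck, reassoc_of% h])

theorem rel_coneMap (o : X ⟶ A) (η : X ⊗ CI M ⟶ T) (h : coneBase X ≫ η = o ≫ f) (a : A ⟶ A')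
    (b : T ⟶ T') (w : f ≫ b = a ≫ f') :
    rel f o η h ≫ coneMap a b w = rel f' (o ≫ a) (η ≫ b) (by
      rw [reassoc_of% h, w, Category.assoc]) := by
  rw [rel, glue_comp]
  exact glue_congr _ (by simp) (by simp)

theorem whiskerRight_rel (c : X' ⟶ X) (o : X ⟶ A) (η : X ⊗ CI M ⟶ T)
    (h : coneBase X ≫ η = o ≫ f) :
    c ▷ S M ≫ rel f o η h = rel f (c ≫ o) (c ▷ CI M ≫ η) (by
      rw [coneBase_naturality_assoc, h, Category.assoc]) := by
  rw [rel, whiskerRight_glue]
  exact glue_congr _ (by rw [comp_whiskerRight, Category.assoc]) (Category.assoc _ _ _).symm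

theorem rel_cq (o : X ⟶ A) (η : X ⊗ CI M ⟶ T) (h : coneBase X ≫ η = o ≫ f) :
    MHtpy (rel f o η h ≫ cq f) (o ▷ S M) := by
  rw [rel, glue_comp]
  have e1 : (o ▷ CI M ≫ ck f) ≫ cq f = ccoll X ≫ o ▷ S M := by simp [ccoll_naturality]
  have e2 : (η ≫ ci f) ≫ cq f = 0 := by simp
  rw [glue_congr _ e1 e2]
  exact glue_ccoll_zero _ _

/-- a relative class which comes from a null homotopy in the source vanishes -/
theorem rel_null (o : X ⟶ A) (χ : X ⊗ CI M ⟶ A) (h : coneBase X ≫ χ = o) :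
    MHtpy (rel f o (χ ≫ f) (by rw [reassoc_of% h])) 0 := by
  subst h
  have key := glue_faces (χ ▷ CI M ≫ ck f) (by rw [coneBase_naturality_assoc])
  refine (MHtpy.of_eq ?_).trans key
  exact glue_congr _ (by simp) (by rw [coneBase_naturality_assoc, coneBase_ck, Category.assoc])

/-- changing the null homotopy -/
theorem rel_change (o : X ⟶ A) (η η' : X ⊗ CI M ⟶ T) (h : coneBase X ≫ η = o ≫ f)
    (h' : coneBase X ≫ η' = o ≫ f) :
    MHtpy (rel f o η' h') (madd (glue η η' (h.trans h'.symm) ≫ ci f) (rel f o η h)) := by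
  rw [glue_comp]
  exact glue_cocycle _ _

end rel

end Vale.Agent.P257.M
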