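import Vale.Agent.P257.M.State
import Vale.Agent.P257.P.Inst

/-!
# P257, part M: from the last state to Smith-Toda complexes
-/

open CategoryTheory

namespace Vale.Agent.P257.M

open Vale.Agent.P257.W Vale.Agent.P257.K
open Vale.Agent.P251.St (SHCat Susp)

theorem Num.ne_two {p n lam : ℕ} (h : Num p n lam) : p ≠ 2 := by
  have := h.three_le
  omega

theorem Num.le_card {p n lam : ℕ} (h : Num p n lam) : lam ≤ Nat.card (Fin p) := by
  rw [Nat.card_eq_fintype_card, Fintype.card_fin]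
  exact h.lam_le

/-- **FINAL.** -/
theorem hasV_of_core {U : SHCat} (σ : Susp U) {ι : Type} [Finite ι] [Nonempty ι] {p n lam : ℕ}
    [hp : Fact p.Prime] (h : Num p n lam) {hl : lam ≤ Nat.card ι} (c : Core ι p n lam hl n)
    (hc : c.Det (QG σ hp.out h.ne_two)) : P257.St.HasV σ p n :=
  hasV_QG σ hp.out h.ne_two h.two_le (h.pow_lt le_rfl).le c.tc1 hc

/-- the induction -/
theorem exists_core {ι : Type} [Finite ι] [Nonempty ι] {p n lam : ℕ} [Fact p.Prime]
    {hl : lam ≤ Nat.card ι} {D : ∀ j, Core ι p n lam hl j → Prop} (h0 : ∃ c, D 0 c)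
    (hs : ∀ j < n, ∀ c, D j c → ∃ c', D (j + 1) c') : ∀ j ≤ n, ∃ c, D j c
  | 0, _ => h0
  | j + 1, h => (exists_core h0 hs j (by omega)).elim fun c k => hs j h c k

/-- the statement which remains to be proved -/
def Ind {U : SHCat} (σ : Susp U) : Prop :=
  ∀ (p n lam : ℕ) [hp : Fact p.Prime] (h : Num p n lam),
    haveI : Nonempty (Fin p) := ⟨⟨0, hp.out.pos⟩⟩
    ∃ c : Core (Fin p) p n lam h.le_card n, c.Det (QG σ hp.out h.ne_two)

/-- the explicit bound -/
theorem hasV_of_ind {U : SHCat} {σ : Susp U} (H : Ind σ) (n p : ℕ) (hp : p.Prime)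
    (h : (2 ^ n + 3) ^ (n + 1) + 2 + 8 * 2 ^ n ≤ p) : P257.St.HasV σ p n := by
  have : Fact p.Prime := ⟨hp⟩
  have : Nonempty (Fin p) := ⟨⟨0, hp.pos⟩⟩
  have k : Num p n (2 ^ n + 3) := ⟨le_rfl, by omega, by omega⟩
  obtain ⟨c, hc⟩ := H p n _ k
  exact hasV_of_core σ k c hc

end Vale.Agent.P257.M
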