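import Vale.Agent.P251.H.Five
import Vale.Agent.P251.H.Exact

/-!
# P257, part M: differences of null homotopies

`glue ψ χ : X ⊗ S ⟶ B` is the difference of two null homotopies `ψ χ : X ⊗ [0, ∞] ⟶ B` of the
same map.  Every map `X ⊗ S ⟶ B` is such a difference with prescribed second (or first) argument,
and differences satisfy the cocycle identity.
-/

open CategoryTheory MonoidalCategory Limits

namespace Vale.Agent.P257.M

open Vale.Agent.P251.G Vale.Agent.P251.G.LC Vale.Agent.P251.H Vale.Agent.P251.H.LP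
  Vale.Agent.P251.H.StabInput

universe v u

variable {M : Type u} [Category.{v} M] [MonoidalCategory M] [SymmetricCategory M]
    [MonoidalClosed M] [HasZeroMorphisms M] [HasColimitsOfSize.{0, 0} M] [StabInput M]

/-- the positive half of the circle -/
noncomputable abbrev hPos (X : M) : X ⊗ CI M ⟶ X ⊗ S M := X ◁ (J M).map incPos

/-- the negative half of the circle -/
noncomputable abbrev hNeg (X : M) : X ⊗ CI M ⟶ X ⊗ S M := X ◁ (J M).map incNeg

theorem isPushout_halves (X : M) : IsPushout (coneBase X) (coneBase X) (hPos X) (hNeg X) :=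
  isPushout_coneBase_of X isPushout_RR

variable {X X' B B' : M}

/-- the difference of two null homotopies -/
noncomputable def glue (ψ χ : X ⊗ CI M ⟶ B) (h : coneBase X ≫ ψ = coneBase X ≫ χ) :
    X ⊗ S M ⟶ B := (isPushout_halves X).desc ψ χ h

@[reassoc (attr := simp)]
theorem hPos_glue (ψ χ : X ⊗ CI M ⟶ B) (h : coneBase X ≫ ψ = coneBase X ≫ χ) :
    hPos X ≫ glue ψ χ h = ψ := (isPushout_halves X).inl_desc _ _ _

@[reassoc (attr := simp)]
theorem hNeg_glue (ψ χ : X ⊗ CI M ⟶ B) (h : coneBase X ≫ ψ = coneBase X ≫ χ) :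
    hNeg X ≫ glue ψ χ h = χ := (isPushout_halves X).inr_desc _ _ _

theorem halves_ext {f g : X ⊗ S M ⟶ B} (h1 : hPos X ≫ f = hPos X ≫ g)
    (h2 : hNeg X ≫ f = hNeg X ≫ g) : f = g := (isPushout_halves X).hom_ext h1 h2

theorem glue_comp (ψ χ : X ⊗ CI M ⟶ B) (h : coneBase X ≫ ψ = coneBase X ≫ χ) (f : B ⟶ B') :
    glue ψ χ h ≫ f = glue (ψ ≫ f) (χ ≫ f) (by rw [reassoc_of% h]) := by
  apply halves_ext <;> simp

theorem whiskerRight_glue (a : X' ⟶ X) (ψ χ : X ⊗ CI M ⟶ B)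
    (h : coneBase X ≫ ψ = coneBase X ≫ χ) :
    a ▷ S M ≫ glue ψ χ h = glue (a ▷ CI M ≫ ψ) (a ▷ CI M ≫ χ) (by
      rw [StabInput.coneBase_naturality_assoc, StabInput.coneBase_naturality_assoc, h]) := by
  apply halves_ext
  · rw [whisker_exchange_assoc, hPos_glue, hPos_glue]
  · rw [whisker_exchange_assoc, hNeg_glue, hNeg_glue]

theorem glue_congr {ψ χ ψ' χ' : X ⊗ CI M ⟶ B} (h : coneBase X ≫ ψ = coneBase X ≫ χ)
    (e1 : ψ = ψ') (e2 : χ = χ') : glue ψ χ h = glue ψ' χ' (e1 ▸ e2 ▸ h) := by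
  subst e1 e2; rfl

theorem glue_map {T : LC} (a b : HH ⟶ T) (w : zeroHH ≫ a = zeroHH ≫ b)
    (φ : X ⊗ (J M).obj T ⟶ B)
    (h : coneBase X ≫ X ◁ (J M).map a ≫ φ = coneBase X ≫ X ◁ (J M).map b ≫ φ) :
    glue (X ◁ (J M).map a ≫ φ) (X ◁ (J M).map b ≫ φ) h = X ◁ (J M).map (glueRR a b w) ≫ φ := by
  apply halves_ext
  · rw [hPos_glue, ← MonoidalCategory.whiskerLeft_comp_assoc, ← Functor.map_comp, incPos_glueRR]
  · rw [hNeg_glue, ← MonoidalCategory.whiskerLeft_comp_assoc, ← Functor.map_comp, incNeg_glueRR]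

theorem mHtpy_zero_of_cone (χ : X ⊗ CI M ⟶ B) : MHtpy χ 0 := by
  have h := (mcontr_tensor_CI X).comp_right χ
  rwa [Category.id_comp, zero_comp] at h

/-- homotopies of the two halves which agree on the base give a homotopy of the differences -/
theorem glue_mHtpy (H K : (X ⊗ CI M) ⊗ I M ⟶ B)
    (h : coneBase X ▷ I M ≫ H = coneBase X ▷ I M ≫ K)
    (h0 : coneBase X ≫ inc 0 _ ≫ H = coneBase X ≫ inc 0 _ ≫ K)
    (h1 : coneBase X ≫ inc 1 _ ≫ H = coneBase X ≫ inc 1 _ ≫ K) :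
    MHtpy (glue (inc 0 _ ≫ H) (inc 0 _ ≫ K) h0) (glue (inc 1 _ ≫ H) (inc 1 _ ≫ K) h1) := by
  have hP := StabInput.isPushout_whiskerRight (I M) (isPushout_halves X)
  refine ⟨hP.desc H K h, ?_, ?_⟩
  · apply halves_ext
    · rw [← StabInput.inc_naturality_assoc, hP.inl_desc, hPos_glue]
    · rw [← StabInput.inc_naturality_assoc, hP.inr_desc, hNeg_glue]
  · apply halves_ext
    · rw [← StabInput.inc_naturality_assoc, hP.inl_desc, hPos_glue]
    · rw [← StabInput.inc_naturality_assoc, hP.inr_desc, hNeg_glue]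

/-- a homotopy of one null homotopy can be followed by any other one with the same base -/
theorem exists_follow {ψ χ : X ⊗ CI M ⟶ B} (h : coneBase X ≫ ψ = coneBase X ≫ χ)
    (H : (X ⊗ CI M) ⊗ I M ⟶ B) (h0 : inc 0 _ ≫ H = χ) :
    ∃ K : (X ⊗ CI M) ⊗ I M ⟶ B, inc 0 _ ≫ K = ψ ∧
      coneBase X ▷ I M ≫ K = coneBase X ▷ I M ≫ H :=
  hCof_coneBase X B ψ (coneBase X ▷ I M ≫ H) (by
    rw [StabInput.inc_naturality_assoc, h0, h])

theorem base_inc {H K : (X ⊗ CI M) ⊗ I M ⟶ B}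
    (h : coneBase X ▷ I M ≫ H = coneBase X ▷ I M ≫ K) (t : unitInterval) :
    coneBase X ≫ inc t _ ≫ H = coneBase X ≫ inc t _ ≫ K := by
  rw [← StabInput.inc_naturality_assoc, ← StabInput.inc_naturality_assoc, h]

/-- Every map out of the suspension is a difference with given second argument. -/
theorem exists_glue_left (χ : X ⊗ CI M ⟶ B) (y : X ⊗ S M ⟶ B) :
    ∃ (ψ : X ⊗ CI M ⟶ B) (h : coneBase X ≫ ψ = coneBase X ≫ χ), MHtpy (glue ψ χ h) y := by
  obtain ⟨H, h0, h1⟩ := (mHtpy_zero_of_cone (hNeg X ≫ y)).trans (mHtpy_zero_of_cone χ).symm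
  have hw : coneBase X ≫ hPos X ≫ y = coneBase X ≫ hNeg X ≫ y := by
    rw [reassoc_of% (isPushout_halves X).w]
  obtain ⟨K, k0, k1⟩ := exists_follow hw H h0
  have e1 := base_inc k1 1
  have key := glue_mHtpy K H k1 (base_inc k1 0) e1
  refine ⟨inc 1 _ ≫ K, by rw [e1, h1], ?_⟩
  have e2 : glue (inc 0 _ ≫ K) (inc 0 _ ≫ H) (base_inc k1 0) = y := by
    apply halves_ext
    · rw [hPos_glue, k0]
    · rw [hNeg_glue, h0]
  rw [e2, glue_congr e1 rfl h1] at key
  exact key.symm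

/-- Every map out of the suspension is a difference with given first argument. -/
theorem exists_glue_right (ψ : X ⊗ CI M ⟶ B) (y : X ⊗ S M ⟶ B) :
    ∃ (χ : X ⊗ CI M ⟶ B) (h : coneBase X ≫ ψ = coneBase X ≫ χ), MHtpy (glue ψ χ h) y := by
  obtain ⟨H, h0, h1⟩ := (mHtpy_zero_of_cone (hPos X ≫ y)).trans (mHtpy_zero_of_cone ψ).symm
  have hw : coneBase X ≫ hNeg X ≫ y = coneBase X ≫ hPos X ≫ y := by
    rw [reassoc_of% (isPushout_halves X).w]
  obtain ⟨K, k0, k1⟩ := exists_follow hw H h0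
  have e1 := base_inc k1.symm 1
  have key := glue_mHtpy H K k1.symm (base_inc k1.symm 0) e1
  refine ⟨inc 1 _ ≫ K, by rw [← e1, h1], ?_⟩
  have e2 : glue (inc 0 _ ≫ H) (inc 0 _ ≫ K) (base_inc k1.symm 0) = y := by
    apply halves_ext
    · rw [hPos_glue, h0]
    · rw [hNeg_glue, k0]
  rw [e2, glue_congr e1 h1 rfl] at key
  exact key.symm

theorem exists_ccoll {ψ : X ⊗ CI M ⟶ B} (h : coneBase X ≫ ψ = 0) :
    ∃ b : X ⊗ S M ⟶ B, ccoll X ≫ b = ψ := by
  have hP := isPushout_ccoll X (isZero_empty (M := M)) 0 0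
  exact ⟨hP.desc ψ 0 (by rw [h, comp_zero]), hP.inl_desc _ _ _⟩

theorem glue_ccoll_zero (b : X ⊗ S M ⟶ B) (h : coneBase X ≫ ccoll X ≫ b = coneBase X ≫ 0) :
    MHtpy (glue (ccoll X ≫ b) 0 h) b := by
  have e : glue (ccoll X ≫ b) 0 h =
      X ◁ (J M).map (glueRR collHH 0 (by rw [zeroHH_collHH, comp_zero])) ≫ b := by
    apply halves_ext
    · rw [hPos_glue, ← MonoidalCategory.whiskerLeft_comp_assoc, ← Functor.map_comp, incPos_glueRR]
      rfl
    · rw [hNeg_glue, ← MonoidalCategory.whiskerLeft_comp_assoc, ← Functor.map_comp, incNeg_glueRR,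
        map_zero_comp]
  rw [e]
  have := homotopic_map_comp (M := M) (B := X) homotopic_glueRR_id b
  rwa [map_id_comp] at this

theorem glue_zero_ccoll (a : X ⊗ S M ⟶ B) (h : coneBase X ≫ 0 = coneBase X ≫ ccoll X ≫ a) :
    MHtpy (glue 0 (ccoll X ≫ a) h) (mneg a) := by
  have e : glue 0 (ccoll X ≫ a) h =
      X ◁ (J M).map (glueRR 0 collHH (by rw [zeroHH_collHH, comp_zero])) ≫ a := by
    apply halves_ext
    · rw [hPos_glue, ← MonoidalCategory.whiskerLeft_comp_assoc, ← Functor.map_comp, incPos_glueRR,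
        map_zero_comp]
    · rw [hNeg_glue, ← MonoidalCategory.whiskerLeft_comp_assoc, ← Functor.map_comp, incNeg_glueRR]
      rfl
  rw [e]
  exact homotopic_map_comp (M := M) (B := X) homotopic_glueRR_neg a

theorem glue_ccoll_ccoll (a b : X ⊗ S M ⟶ B)
    (h : coneBase X ≫ ccoll X ≫ b = coneBase X ≫ ccoll X ≫ a) :
    MHtpy (glue (ccoll X ≫ b) (ccoll X ≫ a) h) (madd (mneg a) b) := by
  have w : zeroHH ≫ collHH ≫ sumInr RR RR = zeroHH ≫ collHH ≫ sumInl RR RR := by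
    rw [← Category.assoc, zeroHH_collHH, ← Category.assoc, zeroHH_collHH, zero_comp, zero_comp]
  have e : glue (ccoll X ≫ b) (ccoll X ≫ a) h =
      X ◁ (J M).map (glueRR (collHH ≫ sumInr RR RR) (collHH ≫ sumInl RR RR) w) ≫ tdesc a b := by
    apply halves_ext
    · rw [hPos_glue, ← MonoidalCategory.whiskerLeft_comp_assoc, ← Functor.map_comp, incPos_glueRR,
        Functor.map_comp, MonoidalCategory.whiskerLeft_comp_assoc, tinr_desc]
      rfl
    · rw [hNeg_glue, ← MonoidalCategory.whiskerLeft_comp_assoc, ← Functor.map_comp, incNeg_glueRR,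
        Functor.map_comp, MonoidalCategory.whiskerLeft_comp_assoc, tinl_desc]
      rfl
  have e' : madd (mneg a) b =
      X ◁ (J M).map (cat (neg ≫ sumInl RR RR) (sumInr RR RR)) ≫ tdesc a b := by
    rw [← madd_map, tinr_desc, Functor.map_comp, MonoidalCategory.whiskerLeft_comp_assoc,
      tinl_desc]
    rfl
  rw [e, e']
  exact homotopic_map_comp (M := M) (B := X) (homotopic_glueRR _ _ w) _

/-- The cocycle identity. -/
theorem glue_cocycle {ψ χ φ : X ⊗ CI M ⟶ B} (h1 : coneBase X ≫ ψ = coneBase X ≫ χ)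
    (h2 : coneBase X ≫ χ = coneBase X ≫ φ) :
    MHtpy (glue ψ φ (h1.trans h2)) (madd (glue χ φ h2) (glue ψ χ h1)) := by
  obtain ⟨H, h0, hz⟩ := mHtpy_zero_of_cone χ
  obtain ⟨K, k0, k1⟩ := exists_follow h1 H h0
  obtain ⟨F, f0, f1⟩ := exists_follow h2.symm H h0
  have kz : coneBase X ≫ inc 1 _ ≫ K = 0 := by rw [base_inc k1 1, hz, comp_zero]
  have fz : coneBase X ≫ inc 1 _ ≫ F = 0 := by rw [base_inc f1 1, hz, comp_zero]
  obtain ⟨b, hb⟩ := exists_ccoll kz
  obtain ⟨a, ha⟩ := exists_ccoll fz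
  have s1 := glue_mHtpy K F (k1.trans f1.symm) (base_inc (k1.trans f1.symm) 0)
    (base_inc (k1.trans f1.symm) 1)
  have s2 := glue_mHtpy K H k1 (base_inc k1 0) (base_inc k1 1)
  have s3 := glue_mHtpy H F f1.symm (base_inc f1.symm 0) (base_inc f1.symm 1)
  rw [glue_congr _ k0 f0, glue_congr _ hb.symm ha.symm] at s1
  rw [glue_congr _ k0 h0, glue_congr _ hb.symm hz] at s2
  rw [glue_congr _ h0 f0, glue_congr _ hz ha.symm] at s3
  exact s1.trans ((glue_ccoll_ccoll a b _).trans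
    (MHtpy.madd (s3.trans (glue_zero_ccoll a _)) (s2.trans (glue_ccoll_zero b _))).symm)

theorem glue_self (χ : X ⊗ CI M ⟶ B) : MHtpy (glue χ χ rfl) 0 := by
  obtain ⟨H, h0, hz⟩ := mHtpy_zero_of_cone χ
  have s := glue_mHtpy H H rfl rfl rfl
  rw [glue_congr _ h0 h0, glue_congr _ hz hz] at s
  refine s.trans (MHtpy.of_eq ?_)
  apply halves_ext <;> simp

omit [MonoidalClosed M] [HasZeroMorphisms M] [HasColimitsOfSize.{0, 0} M] [StabInput M] in
theorem swap_aux (X Y Z : M) (e : 𝟙_ M ⟶ Z) :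
    ((ρ_ (X ⊗ Y)).inv ≫ (X ⊗ Y) ◁ e) ≫ (α_ X Y Z).hom ≫ X ◁ (β_ Y Z).hom ≫ (α_ X Z Y).inv =
      ((ρ_ X).inv ≫ X ◁ e) ▷ Y := by
  rw [Category.assoc, associator_naturality_right_assoc, ← MonoidalCategory.whiskerLeft_comp_assoc,
    BraidedCategory.braiding_naturality_right]
  simp

/-- the exchange of the two cone coordinates -/
noncomputable def swapCI (X : M) : (X ⊗ CI M) ⊗ CI M ≅ (X ⊗ CI M) ⊗ CI M :=
  α_ _ _ _ ≪≫ whiskerLeftIso X (β_ _ _) ≪≫ (α_ _ _ _).symm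

@[reassoc]
theorem coneBase_swapCI (X : M) :
    coneBase (X ⊗ CI M) ≫ (swapCI X).hom = coneBase X ▷ CI M :=
  swap_aux X _ _ ptHH

@[reassoc]
theorem coneBase_whiskerRight_swapCI (X : M) :
    coneBase X ▷ CI M ≫ (swapCI X).hom = coneBase (X ⊗ CI M) := by
  rw [← coneBase_swapCI]
  simp [swapCI, ← MonoidalCategory.whiskerLeft_comp_assoc]

@[reassoc]
theorem swapCI_naturality (a : X ⟶ X') :
    (a ▷ CI M) ▷ CI M ≫ (swapCI X').hom = (swapCI X).hom ≫ (a ▷ CI M) ▷ CI M := by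
  simp only [swapCI, Iso.trans_hom, whiskerLeftIso_hom, Iso.symm_hom, Category.assoc]
  rw [associator_naturality_left_assoc, ← whisker_exchange_assoc,
    associator_inv_naturality_left]

theorem swapCI_swapCI (X : M) : (swapCI X).hom ≫ (swapCI X).hom = 𝟙 _ := by
  simp [swapCI, ← MonoidalCategory.whiskerLeft_comp_assoc]

/-- The two faces of a map out of the double cone have a null homotopic difference. -/
theorem glue_faces (w : (X ⊗ CI M) ⊗ CI M ⟶ B)
    (h : coneBase X ≫ coneBase X ▷ CI M ≫ w = coneBase X ≫ coneBase (X ⊗ CI M) ≫ w) :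
    MHtpy (glue (coneBase X ▷ CI M ≫ w) (coneBase (X ⊗ CI M) ≫ w) h) 0 := by
  have h' : coneBase X ≫ coneBase X ▷ CI M = coneBase X ≫ coneBase (X ⊗ CI M) :=
    coneBase_naturality _
  have e := glue_comp (coneBase X ▷ CI M) (coneBase (X ⊗ CI M)) h' w
  rw [← e]
  have := (mcontr_tensor_CI (X ⊗ CI M)).comp_left (glue (coneBase X ▷ CI M) _ h')
  rw [Category.comp_id, comp_zero] at this
  have := this.comp_right w
  rwa [zero_comp] at this

end Vale.Agent.P257.M
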