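import Vale.Agent.P257.M.LDefs
import Vale.Agent.P257.W.DetT
import Vale.Agent.P257.W.UP
import Vale.Agent.P257.W.Eu
import Vale.Agent.P257.N.Step
import Vale.Agent.P257.T.Frob

/-!
# P257, part M: the state of the induction

* `Num p n lam` : the numerical conditions;
* `Core`, `Core.Det` : the data which are constructed by induction;
* `Glue` : the class constructed in the inductive step is detected.
-/

open CategoryTheory MonoidalCategory Limits

namespace Vale.Agent.P257.M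

open Vale.Agent.P251.G Vale.Agent.P251.H Vale.Agent.P251.H.StabInput
open Vale.Agent.P257.A Vale.Agent.P257.T Vale.Agent.P257.V Vale.Agent.P257.W Vale.Agent.P257.K
open Vale.Agent.P257.N (NZ UN SM kT kP kφ)
open Vale.Agent.P257.F (DH sH RH RM FW)
open Equiv (Perm)

universe w

/-- the numerical conditions -/
structure Num (p n lam : ℕ) : Prop where
  lam_ge : 2 ^ n + 3 ≤ lam
  top : lam ^ (n + 1) + 2 ≤ p
  big : 8 * 2 ^ n ≤ p

namespace Num

variable {p n lam : ℕ} (h : Num p n lam)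
include h

theorem two_le : 2 ≤ lam := le_trans (Nat.le_add_left 3 _ |>.trans' (by omega)) h.lam_ge

theorem Wt_le (i : ℕ) : (2 ^ n + 2) * Wt lam i < lam ^ i := by
  have := h.lam_ge
  induction i with
  | zero => exact Nat.one_pos
  | succ i ih =>
    rw [Wt_succ, pow_succ]
    nlinarith [Nat.mul_le_mul_left (lam ^ i) this]

theorem pow_le {i : ℕ} (k : i ≤ n + 1) : lam ^ i ≤ lam ^ (n + 1) :=
  Nat.pow_le_pow_right (by have := h.two_le; omega) k

theorem pow_lt {i : ℕ} (k : i ≤ n + 1) : lam ^ i < p := by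
  have := h.pow_le k
  have := h.top
  omega

theorem lam_le : lam ≤ p := by simpa using (h.pow_lt (i := 1) (by omega)).le

theorem three_le : 3 ≤ p := by
  have := h.big
  have := Nat.one_le_two_pow (n := n)
  omega

theorem lm_lt : p * 2 ^ n < p ^ 2 := by
  have := h.big
  have := h.three_le
  nlinarith

theorem lm_lt' : p * 2 ^ n < (2 ^ n + 1) * p := by
  have := h.three_le
  nlinarith

end Num

theorem exists_num (n : ℕ) : ∃ lam p0 : ℕ, ∀ p, p0 ≤ p → Num p n lam :=
  ⟨2 ^ n + 3, (2 ^ n + 3) ^ (n + 1) + 2 + 8 * 2 ^ n, fun _ h => ⟨le_rfl, by omega, by omega⟩⟩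

/-- the parameters of the profile -/
noncomputable abbrev pa (p n lam : ℕ) [hp : Fact p.Prime] : Par Lam :=
  par p (lam ^ (n + 1)) (p * 2 ^ n) hp.out.pos

/-- the profile of an algebra, universally in a left factor -/
def UP0 (p n lam : ℕ) [Fact p.Prime] (B : CommMon MM) (W N : ℕ) : Prop :=
  UP (sE p) (tE p) (pa p n lam) (default : CommMon.trivial MM ⟶ B) W N

variable (ι : Type) [Finite ι] [Nonempty ι] (p : ℕ) [hp : Fact p.Prime] (n lam : ℕ)
  (hl : lam ≤ Nat.card ι)

/-- the data after the cells `0, …, j` have been attached -/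
structure Core (j : ℕ) where
  /-- the universal coefficients -/
  A : CommMon MM
  /-- the specialisation -/
  sp0 : A ⟶ T0
  /-- the actual algebra with `j` cells -/
  T : CommMon MM
  /-- the actual algebra with `j + 1` cells -/
  T1 : CommMon MM
  /-- the actual chain -/
  tc : TC (okT p lam) T0 j T
  /-- the last cell -/
  s : TStep T T1
  hs : okT p lam j s.X
  /-- the universal algebra with `j` cells -/
  R : CommMon MM
  /-- the universal algebra with `j + 1` cells -/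
  B : CommMon MM
  /-- the specialisation -/
  sp : R ⟶ T
  /-- the specialisation -/
  sp1 : B ⟶ T1
  /-- the universal chain -/
  c : RC A sp0 tc R sp
  /-- the last universal cell -/
  r : RStep s sp sp1
  good : Good A
  /-- the level -/
  nz : NZ (SM ι) B
  un : UN p (lam ^ (n + 1) : ℕ) (p * 2 ^ n : ℕ) nz (Wt lam (j + 1))
  /-- the specialisation -/
  fold : nz.N ⟶ T1
  hfold : nz.β ≫ fold = sp1
  /-- the Frobenius -/
  Fr : R ⟶ FrC ι lam nz.Z
  hFr : FrobOn hl good.le0 c.i0 (trivMap (Perm ι) (c.i0 ≫ r.i) ≫ nz.γ) Fr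
  upB : UP0 p n lam B ((2 ^ n + 1) * Wt lam (j + 1)) (2 ^ (j + 1))
  upN : UP0 p n lam nz.N ((2 ^ n + 2) * Wt lam (j + 1)) (2 ^ (j + 1))

variable {ι p n lam hl} {j : ℕ}

/-- the actual chain with `j + 1` cells -/
abbrev Core.tc1 (σ : Core ι p n lam hl j) : TC (okT p lam) T0 (j + 1) σ.T1 := σ.tc.cons σ.s σ.hs

/-- the universal chain with `j + 1` cells -/
abbrev Core.c1 (σ : Core ι p n lam hl j) : RC σ.A σ.sp0 σ.tc1 σ.B σ.sp1 := σ.c.cons σ.s σ.hs σ.r

/-- the Frobenius of the last attaching map -/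
noncomputable abbrev Core.Fv (σ : Core ι p n lam hl j) :
    (FrL (Perm ι) ι lam).obj σ.s.X ⟶ σ.nz.Z.X := frV σ.Fr σ.r.v

variable {MU : EE p} [MonObj MU] {A₀ : Type w} [CommRing A₀] {G₀ : L.RegSeq p A₀}
  (Co : L.Coef (SC.sph (De p)) MU G₀)

/-- all cells are detected -/
def Core.Det (σ : Core ι p n lam hl j) : Prop := σ.tc1.All (DetS Co ee fun i => lam ^ i)

variable (ι n lam hl) in
/-- The class constructed in the inductive step is detected. -/
def Glue : Prop :=
  ∀ (j : ℕ) (_ : j < n) (σ : Core ι p n lam hl j) (_ : σ.Det Co) (c : D.O) (m : ℕ)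
    (_ : Nonempty c.El) (_ : (m : ℤ) = Fintype.card c.El + (dd p j - 1))
    (_ : σ.s.X ≅ D.EF.rep (⟨c, (ee j, ((lam ^ j : ℕ) : ℤ))⟩ : JG) ⊗ tpow (S MM) m)
    (V : SC (DH ι p)) (f : (sH ι p).obj ((FrL (Perm ι) ι lam).obj σ.s.X) ⟶ V)
    (_ : Eu (N.aH ι (DH ι p)) (m + 2) f) (g : V ⟶ (sH ι p).obj σ.nz.Z.X)
    (_ : f ≫ g = (sH ι p).map σ.Fv) (Y : EE p)
    (_ : Y ≅ (cE p).obj (dd p (j + 1) - 1, (p • ee j, ((lam ^ (j + 1) : ℕ) : ℤ))))
    (t : (kT ι p).obj Y ≅ (Kl.ks _).obj V) (y : Y ⟶ (sE p).obj σ.nz.N.X)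
    (_ : (kT ι p).map y ≫ kφ p σ.nz.φ = t.hom ≫ (Kl.ks _).map g),
    DetV Co (j + 1) σ.tc1.i0 (p • ee j) (lam ^ (j + 1)) (y ≫ (sE p).map (ah σ.fold))

theorem UP0.gp {B : CommMon MM} {W N : ℕ} (h : UP0 p n lam B W N) (hW : W ≤ lam ^ (n + 1)) :
    GP (sE p) (tE p) (pa p n lam) B.X W N := by
  have := h.self (W := 0) (N := 0) (by rw [zero_add]; exact Int.ofNat_le.2 hW) ⟨posT_unit, NF0.unit.posL le_rfl,
    prof_unit _ _ _⟩
  rwa [zero_add, zero_add] at this

end Vale.Agent.P257.M
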