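import Vale.Agent.P257.M.Step
import Vale.Agent.P257.M.Base
import Vale.Agent.P257.M.Fin
import Vale.Agent.P257.W.Glue
import Vale.Agent.P257.Det.SCM

/-!
# P257, part M: the induction
-/

namespace Vale.Agent.P257.M

open Vale.Agent.P251.St Vale.Agent.P257.W

theorem ind {U : SHCat} (σ : Susp U) : Ind σ := fun p n lam hp h =>
  haveI : Nontrivial (Fin p) := Fin.nontrivial_iff_two_le.2 hp.out.two_le
  exists_core (D := fun _ c => c.Det (QG σ hp.out h.ne_two)) (exists_core_zero _ h)
    (fun _ hj c hc => Core.step _ h (Z.ctx iG p (Fin p))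
      (W.glue h (isMU_QG h.ne_two σ (detO_EM σ hp.out h.ne_two))) hj c hc) n le_rfl

end Vale.Agent.P257.M
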