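import Vale.Agent.P257.M.State
import Vale.Agent.P257.W.MUD

/-!
# P257, part M: periodicity of the detection
-/

open CategoryTheory MonoidalCategory Limits

namespace Vale.Agent.P257.M

open Vale.Agent.P251.G Vale.Agent.P251.H Vale.Agent.P251.H.StabInput
open Vale.Agent.P257.A Vale.Agent.P257.T Vale.Agent.P257.V Vale.Agent.P257.W Vale.Agent.P257.K

universe w

variable {p : ℕ} {MU : EE p} [MonObj MU] {A₀ : Type w} [CommRing A₀] {G₀ : L.RegSeq p A₀}
  (Co : L.Coef (SC.sph (De p)) MU G₀)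

theorem det0_perR {T : CommMon MM} {φ : T0 ⟶ T} {a b c : Lam} {r : ℕ} {Y : EE p}
    {v : Y ⟶ (sE p).obj T.X} (h : Det0 φ a r v) (e : a + b = c) :
    Det0 φ c r (v ▷ (sE p).obj (rp (b, 0)) ≫ (sE p).map (perR φ b).hom) := by
  obtain ⟨i, rfl⟩ := h
  refine ⟨whiskerRightIso i _ ≪≫ (sE p).mapIso
    (rpAdd (g := (a, (r : ℤ))) (g' := (b, 0)) (by simp [e])), ?_⟩
  have h1 := congrArg (sE p).map (ut_perR (r := r) (φ := φ) e)
  rw [Functor.map_comp, SC.st_whiskerRight, (sE p).map_comp (rpAdd _).hom] at h1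
  rw [C.zsmul_whiskerRight, Preadditive.zsmul_comp, comp_whiskerRight, Category.assoc, Iso.trans_hom,
    Category.assoc, Functor.mapIso_hom, ← h1]
  rfl

/-- **PER.** -/
theorem exists_per {T : CommMon MM} (φ : T0 ⟶ T) (a b : Lam) (r : ℕ) (J : ℤ) {Y : EE p}
    (e : Y ≅ (cE p).obj (J, (a, (r : ℤ)))) (v : Y ⟶ (sE p).obj T.X) :
    ∃ v' : (cE p).obj (J, (b, (r : ℤ))) ⟶ (sE p).obj T.X,
      (Det0 φ a r v → Det0 φ b r v') ∧ (∀ h, DetV Co h φ a r v → DetV Co h φ b r v') ∧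
      ∀ (T' : CommMon MM) (ψ : T ⟶ T'), v' ≫ (sE p).map (ah ψ) = 0 → v ≫ (sE p).map (ah ψ) = 0 := by
  have k : a + (b - a) = b := add_sub_cancel a b
  let i : Y ⊗ (sE p).obj (rp (b - a, 0)) ≅ (cE p).obj (J, (b, (r : ℤ))) :=
    whiskerRightIso e _ ≪≫ α_ _ _ _ ≪≫ whiskerLeftIso _ ((sE p).mapIso
      (rpAdd (g := (a, (r : ℤ))) (g' := (b - a, 0)) (by simp)))
  refine ⟨i.symm.hom ≫ v ▷ (sE p).obj (rp (b - a, 0)) ≫ (sE p).map (perR φ (b - a)).hom,
    fun h => (det0_perR h k).iso _, fun _ h => (h.perR k).iso _, fun T' ψ h => ?_⟩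
  rw [Category.assoc, Category.assoc, ← Functor.map_comp, perR_nat, Functor.map_comp,
    SC.st_whiskerRight, Iso.symm_hom, Preadditive.IsIso.comp_left_eq_zero] at h
  erw [← comp_whiskerRight_assoc] at h
  rw [Preadditive.IsIso.comp_right_eq_zero] at h
  exact P251.M.whiskerRight_inj ((sE p).obj (rp (b - a, 0)))
    (h.trans MonoidalPreadditive.zero_whiskerRight.symm)

end Vale.Agent.P257.M
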